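import Vale.Agent.P167.H601.S2.Main

/-!
# P167, `0 < q < 1`: local factors of an abstract weight, definitions

`Sw`: a weight `w` of the pieces of a domain and finitely many centres. The weights are bounded; a piece
with weight different from one is large or lies in a box around a centre. `Wl`: centres with positive
weights. `ExtI`: an extra factor, local at finitely many centres, decreasing in the radius and comparable
in mean at two scales. `TT`: the product of the extra factor and of the local factors.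
-/

set_option autoImplicit false

namespace Vale.Agent.P167.N.AW

open Finset
open Vale.Agent.P167 Vale.Agent.P167.BR
open Vale.Agent.P167.FK (Bq Ex Good RSW cf)
open Vale.Agent.P167.FKA (Loc Ex_mono Ex_congr Ex_const Ex_mul_left Ex_nonneg)
open Vale.Agent.P167.H562.QM (MajA OneC)
open Vale.Agent.P167.H975 (TX TX_loc)
open Vale.Agent.P167.H601.LG (nm_of_Bq nm_tri' nm_comm)
open Vale.Agent.P167.H601.S2 (Rg Off off_of_loc TX_nonneg Bq_sub)

/-- **A weight of the pieces and centres.** -/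
structure Sw (A0 : ℝ) (ℓ m₀ : ℤ) (D C : Finset (ℤ × ℤ)) (w : Finset Ed → ℝ) (η : Cfg) : Prop where
  /-- the bound of the weights -/
  one_le : 1 ≤ A0
  /-- the weights are bounded -/
  up : ∀ ω : Cfg, ∀ A ∈ pcs ω D, |w A| ≤ A0
  /-- a piece with weight different from one meets the domain -/
  head : ∀ ω : Cfg, ∀ A ∈ pcs ω D, w A ≠ 1 → ∃ e ∈ A, hdv e ∈ D
  /-- a piece with weight different from one is large or in a box around a centre -/
  big : ∀ ω : Cfg, ∀ A ∈ pcs ω D, w A ≠ 1 → ∀ r : ℤ, r ≤ ℓ →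
    (∀ c ∈ C, ¬ ∀ e ∈ A, hdv e ∈ Bq c r) →
      ∃ e ∈ A, ∃ e' ∈ A, (r : ℝ) / 16 ≤ nm (hdv e - hdv e')
  /-- the centres are far from each other -/
  far : ∀ c ∈ C, ∀ c' ∈ C, c ≠ c' → 4 * ℓ < nm (c - c')
  /-- the centres are next to the domain -/
  near : ∀ c ∈ C, ∃ v ∈ D, nm (c - v) ≤ 1
  /-- the configuration outside -/
  good : Good η
  /-- the boundary is regular -/
  one : ∀ (x : ℤ × ℤ) (R : ℤ), 1 ≤ R → R ≤ m₀ → (∃ v ∈ D, nm (x - v) ≤ m₀) → OneC x R D η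

variable {A0 c0 C1 C2 Q s x : ℝ} {ℓ m₀ r r' K Λ : ℤ} {D C P P' Z Z' : Finset (ℤ × ℤ)}
  {w : Finset Ed → ℝ} {η : Cfg} {E : ℕ} {I J : ℤ → Cfg → ℝ}

theorem Sw.le (h : Sw A0 ℓ m₀ D C w η) {ω : Cfg} {A : Finset Ed} (hA : A ∈ pcs ω D) :
    w A ≤ A0 := (le_abs_self _).trans (h.up ω A hA)

/-- A smaller radius. -/
theorem Sw.mono (h : Sw A0 ℓ m₀ D C w η) (hr : r ≤ ℓ) : Sw A0 r m₀ D C w η :=
  ⟨h.one_le, h.up, h.head, fun ω A hA hw a ha => h.big ω A hA hw a (ha.trans hr),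
    fun c hc c' hc' hne => by have := h.far c hc c' hc' hne; omega, h.near, h.good, h.one⟩

/-- Lower bound of the weights around the points. -/
def Wl (w : Finset Ed → ℝ) (D P : Finset (ℤ × ℤ)) (c0 : ℝ) (r : ℤ) : Prop :=
  ∀ c ∈ P, ∀ ω : Cfg, ∀ A ∈ pcs ω D, (∀ e ∈ A, hdv e ∈ Bq c r) → c0 ≤ w A

theorem Wl.mono (h : Wl w D P c0 r) (h' : r' ≤ r) : Wl w D P c0 r' := fun j hj ω A hA hA' =>
  h j hj ω A hA fun e he => Bq_sub h' (hA' e he)

theorem Wl.sub (h : Wl w D P c0 r) (h' : P' ⊆ P) : Wl w D P' c0 r := fun j hj => h j (h' hj)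

theorem Wl.nonneg (h : Wl w D P c0 r) (hc0 : 0 ≤ c0) {c : ℤ × ℤ} (hj : c ∈ P) (ω : Cfg) :
    0 ≤ TX w D c r ω :=
  TX_nonneg fun A hA hA' => hc0.trans (h c hj ω A hA hA')

/-- The product of the local factors over the points. -/
noncomputable def PT (w : Finset Ed → ℝ) (D P : Finset (ℤ × ℤ)) (r : ℤ) (ω : Cfg) : ℝ :=
  ∏ c ∈ P, TX w D c r ω

theorem Wl.pnonneg (h : Wl w D P c0 r) (hc0 : 0 ≤ c0) (ω : Cfg) : 0 ≤ PT w D P r ω :=
  prod_nonneg fun _ hj => h.nonneg hc0 hj ω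

/-- The product of the local factors and of the extra factor. -/
noncomputable def TT (w : Finset Ed → ℝ) (D : Finset (ℤ × ℤ)) (I : ℤ → Cfg → ℝ)
    (P : Finset (ℤ × ℤ)) (r : ℤ) (ω : Cfg) : ℝ := I r ω * PT w D P r ω

theorem TT_one (w : Finset Ed → ℝ) (D P : Finset (ℤ × ℤ)) (r : ℤ) :
    TT w D (fun _ _ => 1) P r = PT w D P r := by
  funext ω
  exact one_mul _

/-- The extra factor: local at the points of `Z`, decreasing in the radius, and comparable in mean. -/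
structure ExtI (Q : ℝ) (D : Finset (ℤ × ℤ)) (η : Cfg) (I : ℤ → Cfg → ℝ) (Z : Finset (ℤ × ℤ))
    (Λ : ℤ) (E : ℕ) (K : ℤ) (C1 : ℝ) (r : ℤ) : Prop where
  /-- the ratio -/
  one : 1 ≤ Λ
  /-- the factor is nonnegative -/
  nn : ∀ r' ω, 1 ≤ r' → r' ≤ r → 0 ≤ I r' ω
  /-- the factor decreases in the radius -/
  mono : ∀ r' r'' ω, 1 ≤ r' → r' ≤ r'' → r'' ≤ r → I r'' ω ≤ I r' ω
  /-- the factor is local -/
  loc : ∀ r', 1 ≤ r' → r' ≤ r → Loc (Z.biUnion fun c => Bq c r') (I r')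
  /-- the factors of two scales are comparable in mean -/
  ext : ∀ r' r'', K ≤ r' → 1 ≤ r' → r' ≤ r'' → r'' ≤ r → r'' ≤ 2 * E * r' → ∀ F : Cfg → ℝ,
    (∀ ω, 0 ≤ F ω) → Off D (fun v => ∃ c ∈ Z, nm (v - c) ≤ Λ * r'') F →
      Ex Q D η (fun ω => I r' ω * F ω) ≤ C1 * Ex Q D η (fun ω => I r'' ω * F ω)

theorem ExtI.le_K {K' : ℤ} (h : ExtI Q D η I Z Λ E K C1 r) (hK : K ≤ K') :
    ExtI Q D η I Z Λ E K' C1 r :=
  ⟨h.one, h.nn, h.mono, h.loc, fun r' r'' h1 => h.ext r' r'' (hK.trans h1)⟩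

theorem ExtI.le_r (h : ExtI Q D η I Z Λ E K C1 r) (hr : r' ≤ r) :
    ExtI Q D η I Z Λ E K C1 r' :=
  ⟨h.one, fun a ω h1 h2 => h.nn a ω h1 (h2.trans hr),
    fun a b ω h1 h2 h3 => h.mono a b ω h1 h2 (h3.trans hr),
    fun a h1 h2 => h.loc a h1 (h2.trans hr),
    fun a b h1 h2 h3 h4 => h.ext a b h1 h2 h3 (h4.trans hr)⟩

theorem ExtI.le_C (hQ : 0 < Q) (h : ExtI Q D η I Z Λ E K C1 r) (hC : C1 ≤ C2) :
    ExtI Q D η I Z Λ E K C2 r :=
  ⟨h.one, h.nn, h.mono, h.loc, fun a b h1 h2 h3 h4 h5 F hF0 hF =>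
    (h.ext a b h1 h2 h3 h4 h5 F hF0 hF).trans (mul_le_mul_of_nonneg_right hC
      (Ex_nonneg hQ fun _ _ => mul_nonneg (h.nn b _ (h2.trans h3) h4) (hF0 _)))⟩

theorem ExtI.le_L {Λ' : ℤ} (h : ExtI Q D η I Z Λ E K C1 r) (hΛ : Λ ≤ Λ') :
    ExtI Q D η I Z Λ' E K C1 r :=
  ⟨h.one.trans hΛ, h.nn, h.mono, h.loc, fun a b h1 h2 h3 h4 h5 F hF0 hF =>
    h.ext a b h1 h2 h3 h4 h5 F hF0 fun ω ω' hω => hF ω ω' fun v hv => hω v fun hv' => hv
      ⟨hv'.1, by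
        obtain ⟨c, hc, hc'⟩ := hv'.2
        exact ⟨c, hc, hc'.trans (mul_le_mul_of_nonneg_right hΛ (by omega))⟩⟩⟩

/-- No extra factor. -/
theorem extI_one (D : Finset (ℤ × ℤ)) (η : Cfg) (E : ℕ) (K r : ℤ) (hΛ : 1 ≤ Λ) :
    ExtI Q D η (fun _ _ => 1) ∅ Λ E K 1 r where
  one := hΛ
  nn := fun _ _ _ _ => zero_le_one
  mono := fun _ _ _ _ _ _ => le_rfl
  loc := fun _ _ _ _ _ _ => rfl
  ext := fun r' r'' _ _ _ _ _ F _ _ => by simp only [one_mul]; exact le_rfl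

/-- **Two extra factors** at points which are far from each other. -/
theorem ExtI.mul (hC : 0 ≤ C1) (h : ExtI Q D η I Z Λ E K C1 r) (h' : ExtI Q D η J Z' Λ E K C2 r)
    (hd : ∀ c ∈ Z, ∀ c' ∈ Z', (Λ + 1) * r < nm (c - c')) :
    ExtI Q D η (fun a ω => I a ω * J a ω) (Z ∪ Z') Λ E K (C1 * C2) r := by
  have hΛ := h.one
  refine ⟨h.one, fun a ω h1 h2 => mul_nonneg (h.nn a ω h1 h2) (h'.nn a ω h1 h2),
    fun a b ω h1 h2 h3 => mul_le_mul (h.mono a b ω h1 h2 h3) (h'.mono a b ω h1 h2 h3)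
      (h'.nn b ω (h1.trans h2) h3) (h.nn a ω h1 (h2.trans h3)), fun a h1 h2 ω ω' hω => ?_,
    fun a b h1 h2 h3 h4 h5 F hF0 hF => ?_⟩
  · show I a ω * J a ω = I a ω' * J a ω'
    rw [h.loc a h1 h2 ω ω' fun v hv => hω v ?_, h'.loc a h1 h2 ω ω' fun v hv => hω v ?_]
    · rw [mem_biUnion] at hv ⊢
      obtain ⟨c, hc, hv⟩ := hv
      exact ⟨c, mem_union_right _ hc, hv⟩
    · rw [mem_biUnion] at hv ⊢
      obtain ⟨c, hc, hv⟩ := hv
      exact ⟨c, mem_union_left _ hc, hv⟩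
  · have hΛ' : 1 ≤ Λ := hΛ
    have key : ∀ c ∈ Z, ∀ c' ∈ Z', ∀ v : ℤ × ℤ, nm (v - c) ≤ Λ * b → ¬ nm (v - c') ≤ b := by
      intro c hc c' hc' v hv hv'
      have h6 := hd c hc c' hc'
      have h7 := nm_tri' c v c'
      have h8 := nm_comm c v
      have h9 : (Λ + 1) * b ≤ (Λ + 1) * r := mul_le_mul_of_nonneg_left h4 (by omega)
      have h10 : (Λ + 1) * b = Λ * b + b := by ring
      omega
    have key' : ∀ c ∈ Z, ∀ c' ∈ Z', ∀ v : ℤ × ℤ, nm (v - c') ≤ Λ * b → ¬ nm (v - c) ≤ b := by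
      intro c hc c' hc' v hv hv'
      have h6 := hd c hc c' hc'
      have h7 := nm_tri' c v c'
      have h8 := nm_comm c v
      have h9 : (Λ + 1) * b ≤ (Λ + 1) * r := mul_le_mul_of_nonneg_left h4 (by omega)
      have h10 : (Λ + 1) * b = Λ * b + b := by ring
      omega
    have e1 := h.ext a b h1 h2 h3 h4 h5 (fun ω => J a ω * F ω)
      (fun ω => mul_nonneg (h'.nn a ω h2 (h3.trans h4)) (hF0 ω)) (by
        intro ω ω' hω
        show J a ω * F ω = J a ω' * F ω'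
        rw [h'.loc a h2 (h3.trans h4) ω ω' fun v hv => hω v ?_, hF ω ω' fun v hv => hω v ?_]
        · rintro ⟨hv1, c, hc, hv2⟩
          exact hv ⟨hv1, c, mem_union_left _ hc, hv2⟩
        · rintro ⟨-, c, hc, hv2⟩
          rw [mem_biUnion] at hv
          obtain ⟨c', hc', hv⟩ := hv
          exact key c hc c' hc' v hv2 ((nm_of_Bq hv).trans h3))
    have e2 := h'.ext a b h1 h2 h3 h4 h5 (fun ω => I b ω * F ω)
      (fun ω => mul_nonneg (h.nn b ω (h2.trans h3) h4) (hF0 ω)) (by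
        intro ω ω' hω
        show I b ω * F ω = I b ω' * F ω'
        rw [h.loc b (h2.trans h3) h4 ω ω' fun v hv => hω v ?_, hF ω ω' fun v hv => hω v ?_]
        · rintro ⟨hv1, c, hc, hv2⟩
          exact hv ⟨hv1, c, mem_union_right _ hc, hv2⟩
        · rintro ⟨-, c', hc', hv2⟩
          rw [mem_biUnion] at hv
          obtain ⟨c, hc, hv⟩ := hv
          exact key' c hc c' hc' v hv2 (nm_of_Bq hv))
    calc Ex Q D η (fun ω => I a ω * J a ω * F ω)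
        = Ex Q D η (fun ω => I a ω * (J a ω * F ω)) := Ex_congr fun _ _ => by ring
      _ ≤ C1 * Ex Q D η (fun ω => I b ω * (J a ω * F ω)) := e1
      _ = C1 * Ex Q D η (fun ω => J a ω * (I b ω * F ω)) := by
          congr 1
          exact Ex_congr fun _ _ => by ring
      _ ≤ C1 * (C2 * Ex Q D η (fun ω => J b ω * (I b ω * F ω))) :=
          mul_le_mul_of_nonneg_left e2 hC
      _ = C1 * C2 * Ex Q D η (fun ω => I b ω * J b ω * F ω) := by
          rw [← mul_assoc]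
          congr 1
          exact Ex_congr fun _ _ => by ring

/-- **Several extra factors** at points which are far from each other. -/
theorem ExtI.prod (hC : 0 ≤ C1) (hΛ : 1 ≤ Λ) {T : ℤ × ℤ → ℤ → Cfg → ℝ} (Z : Finset (ℤ × ℤ))
    (h : ∀ c ∈ Z, ExtI Q D η (T c) {c} Λ E K C1 r)
    (hd : ∀ c ∈ Z, ∀ c' ∈ Z, c ≠ c' → (Λ + 1) * r < nm (c - c')) :
    ExtI Q D η (fun a ω => ∏ c ∈ Z, T c a ω) Z Λ E K (C1 ^ Z.card) r := by
  classical
  induction Z using Finset.induction_on with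
  | empty =>
    simp only [prod_empty, card_empty, pow_zero]
    exact extI_one D η E K r hΛ
  | insert c Z hc ih =>
    have h1 := ih (fun c' hc' => h c' (mem_insert_of_mem hc')) fun a ha b hb =>
      hd a (mem_insert_of_mem ha) b (mem_insert_of_mem hb)
    have h2 := (h c (mem_insert_self c Z)).mul hC h1 fun a ha b hb => by
      rw [mem_singleton] at ha
      subst ha
      exact hd a (mem_insert_self a Z) b (mem_insert_of_mem hb) fun e => hc (e ▸ hb)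
    rw [card_insert_of_notMem hc, pow_succ, mul_comm (C1 ^ Z.card)]
    simp only [prod_insert hc]
    exact h2

/-- **A killed centre**: the local factor is comparable to an indicator which decreases in the
radius. -/
structure Kil (b B : ℝ) (w : Finset Ed → ℝ) (D : Finset (ℤ × ℤ)) (c : ℤ × ℤ) (I : ℤ → Cfg → ℝ)
    (ℓ : ℤ) : Prop where
  /-- an indicator -/
  zo : ∀ (r : ℤ) (ω : Cfg), 1 ≤ r → r ≤ ℓ → I r ω = 0 ∨ I r ω = 1
  /-- the indicator decreases -/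
  anti : ∀ (r' r'' : ℤ) (ω : Cfg), 1 ≤ r' → r' ≤ r'' → r'' ≤ ℓ → I r'' ω ≤ I r' ω
  /-- the factor from below -/
  low : ∀ (r : ℤ) (ω : Cfg), 1 ≤ r → r ≤ ℓ → b * I r ω ≤ TX w D c r ω
  /-- the factor from above -/
  up : ∀ (r : ℤ) (ω : Cfg), 1 ≤ r → r ≤ ℓ → TX w D c r ω ≤ B * I r ω

/-- Local factors with the values `0`, `1`. -/
theorem kil_of {c : ℤ × ℤ} (h : ∀ (r : ℤ) (ω : Cfg), 1 ≤ r → r ≤ ℓ →
    TX w D c r ω = 0 ∨ TX w D c r ω = 1) : Kil 1 1 w D c (TX w D c) ℓ := by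
  refine ⟨h, fun r' r'' ω h1 h2 h3 => ?_, fun r ω _ _ => by rw [one_mul], fun r ω _ _ => by
    rw [one_mul]⟩
  classical
  rcases h r' ω h1 (h2.trans h3) with h' | h'
  · have h4 : TX w D c r'' ω = 0 := by
      unfold TX at h' ⊢
      rw [prod_eq_zero_iff] at h' ⊢
      obtain ⟨A, hA, hA0⟩ := h'
      rw [mem_filter] at hA
      exact ⟨A, mem_filter.2 ⟨hA.1, fun e he => Bq_sub h2 (hA.2 e he)⟩, hA0⟩
    rw [h4, h']
  · rw [h']
    rcases h r'' ω (h1.trans h2) h3 with h | h <;> rw [h]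
    exact zero_le_one

theorem Kil.mono {b B : ℝ} {c : ℤ × ℤ} (h : Kil b B w D c I ℓ) (hr : r ≤ ℓ) :
    Kil b B w D c I r :=
  ⟨fun a ω h1 h2 => h.zo a ω h1 (h2.trans hr), fun a a' ω h1 h2 h3 =>
    h.anti a a' ω h1 h2 (h3.trans hr), fun a ω h1 h2 => h.low a ω h1 (h2.trans hr),
    fun a ω h1 h2 => h.up a ω h1 (h2.trans hr)⟩

theorem Kil.nn {b B : ℝ} {c : ℤ × ℤ} (h : Kil b B w D c I ℓ) (h1 : 1 ≤ r) (h2 : r ≤ ℓ) (ω : Cfg) :
    0 ≤ I r ω ∧ I r ω ≤ 1 := by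
  rcases h.zo r ω h1 h2 with h | h <;> rw [h] <;> norm_num

theorem Kil.nonneg {b B : ℝ} {c : ℤ × ℤ} (h : Kil b B w D c I ℓ) (hb : 0 ≤ b) (h1 : 1 ≤ r)
    (h2 : r ≤ ℓ) (ω : Cfg) : 0 ≤ TX w D c r ω :=
  (mul_nonneg hb (h.nn h1 h2 ω).1).trans (h.low r ω h1 h2)

theorem Kil.le {b B : ℝ} {c : ℤ × ℤ} (h : Kil b B w D c I ℓ) (hB : 0 ≤ B) (h1 : 1 ≤ r)
    (h2 : r ≤ ℓ) (ω : Cfg) : TX w D c r ω ≤ B :=
  (h.up r ω h1 h2).trans (mul_le_of_le_one_right hB (h.nn h1 h2 ω).2)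

/-- The factors of two radii. -/
theorem Kil.two {b B : ℝ} {c : ℤ × ℤ} (h : Kil b B w D c I ℓ) (hb : 0 < b) (hB : 0 ≤ B)
    (h1 : 1 ≤ r') (h12 : r' ≤ r) (h2 : r ≤ ℓ) (ω : Cfg) :
    TX w D c r ω ≤ B / b * TX w D c r' ω := by
  have h3 := h.up r ω (h1.trans h12) h2
  have h4 := h.anti r' r ω h1 h12 h2
  have h5 := h.low r' ω h1 (h12.trans h2)
  calc TX w D c r ω ≤ B * I r' ω := h3.trans (mul_le_mul_of_nonneg_left h4 hB)
    _ = B / b * (b * I r' ω) := by field_simp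
    _ ≤ _ := mul_le_mul_of_nonneg_left h5 (by positivity)

/-- A positive factor is bounded below. -/
theorem Kil.pos {b B : ℝ} {c : ℤ × ℤ} (h : Kil b B w D c I ℓ) (h1 : 1 ≤ r)
    (h2 : r ≤ ℓ) {ω : Cfg} (hp : 0 < TX w D c r ω) : b ≤ TX w D c r ω := by
  rcases h.zo r ω h1 h2 with h3 | h3
  · have := h.up r ω h1 h2
    rw [h3, mul_zero] at this
    linarith
  · have := h.low r ω h1 h2
    rwa [h3, mul_one] at this

end Vale.Agent.P167.N.AW
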