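import Vale.Agent.P167.N.AW.Sit

/-!
# P167, `0 < q < 1`: local factors of an abstract weight, comparison of two scales
-/

set_option autoImplicit false

namespace Vale.Agent.P167.N.AW

open Finset
open Vale.Agent.P167 Vale.Agent.P167.BR
open Vale.Agent.P167.FK (Bq Ex Good RSW cf)
open Vale.Agent.P167.FKA (Loc Ex_mono Ex_congr Ex_const Ex_mul_left Ex_nonneg)
open Vale.Agent.P167.H562.QM (MajA OneC)
open Vale.Agent.P167.H975 (TX TX_loc)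
open Vale.Agent.P167.H601.LG (nm_of_Bq nm_tri' nm_comm)
open Vale.Agent.P167.H601.S2 (Rg Off off_of_loc TX_nonneg Bq_sub prod_cmp prod_cmp_low mom_prod)

variable {A0 c0 C1 C2 Q s x y : ℝ} {ℓ m₀ r r' r1 r2 K Λ : ℤ} {D C P P' Z Z' : Finset (ℤ × ℤ)}
  {w : Finset Ed → ℝ} {η ω : Cfg} {E M : ℕ} {I J : ℤ → Cfg → ℝ}

/-- A family of pieces which are large has at most `M` elements. -/
theorem card_maj {F : Finset (ℤ × ℤ)} {t : ℝ} (hM : MajA F t ω M) {S : Finset (Finset Ed)}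
    (hS : S ⊆ pcs ω D) (h1 : ∀ A ∈ S, ∃ e ∈ A, hdv e ∈ F)
    (h2 : ∀ A ∈ S, ∃ e ∈ A, ∃ e' ∈ A, t ≤ nm (hdv e - hdv e')) : S.card ≤ M := by
  refine hM _ (fun A hA => H167.isSeg (hS hA)) (fun A hA B hB hne => ?_) fun A hA =>
    ⟨h1 A hA, h2 A hA⟩
  rw [disjoint_left]
  intro e h3 h4
  exact hne (eq_of_mem_pcs (hS hA) (hS hB) h3 h4)

open Classical in
/-- The number of the pieces between two scales. -/
theorem card_between (hS : Sw A0 ℓ m₀ D C w η) {c : ℤ × ℤ} (hc : c ∈ C) (hr'r : r' ≤ r)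
    (hr : r ≤ ℓ) (hM : MajA (Bq c r) ((r' : ℝ) / 16) ω M) :
    ((pcs ω D).filter fun A => ((∀ e ∈ A, hdv e ∈ Bq c r) ∧ ¬ ∀ e ∈ A, hdv e ∈ Bq c r') ∧
      w A ≠ 1).card ≤ M := by
  refine card_maj hM (filter_subset _ _) (fun A hA => ?_) fun A hA => ?_
  · rw [mem_filter] at hA
    obtain ⟨e, he⟩ := pcs_nonempty hA.1
    exact ⟨e, he, hA.2.1.1 e he⟩
  · rw [mem_filter] at hA
    obtain ⟨hA1, ⟨hA2, hA3⟩, hA4⟩ := hA
    refine hS.big ω A hA1 hA4 r' (hr'r.trans hr) fun c' hc' hin => ?_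
    by_cases hcc : c = c'
    · subst hcc
      exact hA3 hin
    · obtain ⟨e, he⟩ := pcs_nonempty hA1
      have h3 := hS.far c hc c' hc' hcc
      have h4 := nm_of_Bq (hin e he)
      have h5 := nm_of_Bq (hA2 e he)
      have h6 := nm_tri' c (hdv e) c'
      have h7 := nm_comm c (hdv e)
      have h8 : 0 ≤ nm (hdv e - c) := H825.Reg.nm_nn _
      omega

/-- **Two scales, from above.** -/
theorem TX_up (hS : Sw A0 ℓ m₀ D C w η) {c : ℤ × ℤ} (hc : c ∈ C) (hr'r : r' ≤ r)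
    (hr : r ≤ ℓ) (hw0 : ∀ A ∈ pcs ω D, (∀ e ∈ A, hdv e ∈ Bq c r) → 0 ≤ w A)
    (hM : MajA (Bq c r) ((r' : ℝ) / 16) ω M) :
    TX w D c r ω ≤ A0 ^ M * TX w D c r' ω := by
  classical
  have hcard := card_between hS hc hr'r hr hM
  unfold TX
  refine prod_cmp (fun A _ h e he => Bq_sub hr'r (h e he)) hS.one_le hw0
    (fun A hA _ => hS.le hA) ?_
  convert hcard

/-- **Two scales, from below.** -/
theorem TX_low (hS : Sw A0 ℓ m₀ D C w η) {c : ℤ × ℤ} (hc : c ∈ C) (hr'r : r' ≤ r)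
    (hr : r ≤ ℓ) (hc0 : 0 < c0) (hc1 : c0 ≤ 1)
    (hw0 : ∀ A ∈ pcs ω D, (∀ e ∈ A, hdv e ∈ Bq c r) → c0 ≤ w A)
    (hM : MajA (Bq c r) ((r' : ℝ) / 16) ω M) :
    c0 ^ M * TX w D c r' ω ≤ TX w D c r ω := by
  classical
  have hcard := card_between hS hc hr'r hr hM
  unfold TX
  refine prod_cmp_low (fun A _ h e he => Bq_sub hr'r (h e he)) hc0 hc1
    (fun A hA h => hc0.le.trans (hw0 A hA fun e he => Bq_sub hr'r (h e he)))
    (fun A hA h _ => hw0 A hA h) ?_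
  convert hcard

/-- **Two scales, from above.** -/
theorem PT_up (hS : Sw A0 ℓ m₀ D C w η) (hs0 : A0 ≤ Real.exp (s / 2)) (hc0 : 0 < c0)
    (hP : P ⊆ C) (hr'r : r' ≤ r) (hr : r ≤ ℓ) (hw : Wl w D P c0 r) (ω : Cfg)
    {Nf : ℤ × ℤ → ℕ} (hM : ∀ c ∈ P, MajA (Bq c r) ((r' : ℝ) / 16) ω (Nf c)) :
    PT w D P r ω ≤ Real.exp (s / 2 * ((∑ c ∈ P, Nf c : ℕ) : ℝ)) * PT w D P r' ω := by
  have hA0 : 0 ≤ A0 := zero_le_one.trans hS.one_le
  have hexpA : ∀ m : ℕ, A0 ^ m ≤ Real.exp (s / 2 * (m : ℝ)) := by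
    intro m
    rw [mul_comm, Real.exp_nat_mul]
    exact pow_le_pow_left₀ hA0 hs0 m
  unfold PT
  calc ∏ c ∈ P, TX w D c r ω
      ≤ ∏ c ∈ P, (A0 ^ Nf c * TX w D c r' ω) := by
        refine prod_le_prod (fun c hc => hw.nonneg hc0.le hc ω) fun c hc => ?_
        exact TX_up hS (hP hc) hr'r hr (fun A hA h => hc0.le.trans (hw c hc ω A hA h)) (hM c hc)
    _ = A0 ^ (∑ c ∈ P, Nf c) * ∏ c ∈ P, TX w D c r' ω := by
        rw [prod_mul_distrib, prod_pow_eq_pow_sum]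
    _ ≤ _ := mul_le_mul_of_nonneg_right (hexpA _)
        (prod_nonneg fun c hc => (hw.mono hr'r).nonneg hc0.le hc ω)

/-- **Two scales, from below.** -/
theorem PT_low (hS : Sw A0 ℓ m₀ D C w η) (hc0 : 0 < c0) (hc1 : c0 ≤ 1)
    (hs1 : Real.exp (-(s / 4)) ≤ c0) (hP : P ⊆ C) (hr'r : r' ≤ r) (hr : r ≤ ℓ)
    (hw : Wl w D P c0 r) (ω : Cfg) {Nf : ℤ × ℤ → ℕ}
    (hM : ∀ c ∈ P, MajA (Bq c r) ((r' : ℝ) / 16) ω (Nf c)) :
    Real.exp (-(s / 4 * ((∑ c ∈ P, Nf c : ℕ) : ℝ))) * PT w D P r' ω ≤ PT w D P r ω := by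
  have hexpc : ∀ m : ℕ, Real.exp (-(s / 4 * (m : ℝ))) ≤ c0 ^ m := by
    intro m
    have h3 : -(s / 4 * (m : ℝ)) = m * (-(s / 4)) := by ring
    rw [h3, Real.exp_nat_mul]
    exact pow_le_pow_left₀ (Real.exp_pos _).le hs1 m
  unfold PT
  calc Real.exp (-(s / 4 * ((∑ c ∈ P, Nf c : ℕ) : ℝ))) * ∏ c ∈ P, TX w D c r' ω
      ≤ c0 ^ (∑ c ∈ P, Nf c) * ∏ c ∈ P, TX w D c r' ω :=
        mul_le_mul_of_nonneg_right (hexpc _)
          (prod_nonneg fun c hc => (hw.mono hr'r).nonneg hc0.le hc ω)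
    _ = ∏ c ∈ P, (c0 ^ Nf c * TX w D c r' ω) := by
        rw [prod_mul_distrib, prod_pow_eq_pow_sum]
    _ ≤ _ := by
        refine prod_le_prod (fun c hc => mul_nonneg (pow_nonneg hc0.le _)
          ((hw.mono hr'r).nonneg hc0.le hc ω)) fun c hc => ?_
        exact TX_low hS (hP hc) hr'r hr hc0 hc1 (fun A hA h => hw c hc ω A hA h) (hM c hc)

/-- The product does not read the boxes far from the points. -/
theorem PT_off {x : ℤ} (hf : ∀ c ∈ P, ∀ z ∈ Z, x + r < nm (c - z)) :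
    Off D (fun v => ∃ z ∈ Z, nm (v - z) ≤ x) (PT w D P r) := by
  intro ω ω' hh
  unfold PT
  refine prod_congr rfl fun c hc => ?_
  refine TX_loc _ _ _ _ ω ω' fun v hv => hh v ?_
  rintro ⟨-, z, hz, hv2⟩
  have h5 := nm_of_Bq (mem_inter.1 hv).1
  have h6 := nm_tri' c v z
  have h7 := hf c hc z hz
  have h8 := nm_comm c v
  omega

/-- The product does not read the annuli around the points. -/
theorem PT_offR (hf : ∀ c ∈ P, ∀ c' ∈ P, c ≠ c' → 4 * r1 < nm (c - c')) {a : ℤ × ℤ} (ha : a ∈ P)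
    (hr : r ≤ r1) (h1 : 0 ≤ r1) (hx : (r : ℝ) ≤ x) (hy : y ≤ 2 * r1) :
    Off D (Rg a x y) (PT w D P r) := by
  intro ω ω' hh
  unfold PT
  refine prod_congr rfl fun b hb => ?_
  refine TX_loc _ _ _ _ ω ω' fun v hv => hh v ?_
  rintro ⟨-, hv1, hv2⟩
  have h5 := nm_of_Bq (mem_inter.1 hv).1
  by_cases hab : a = b
  · subst hab
    have h6 : (nm (v - a) : ℝ) ≤ r := by exact_mod_cast h5
    linarith
  · have h6 := hf a ha b hb hab
    have h7 := nm_tri' a v b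
    have h8 := nm_comm a v
    have h10 : (nm (v - a) : ℝ) ≤ 2 * r1 := hv2.trans hy
    have h11 : nm (v - a) ≤ 2 * r1 := by exact_mod_cast h10
    omega

/-- The extra factor does not read the annuli around the points. -/
theorem I_off (hI : ExtI Q D η I Z Λ E K C1 r)
    (hfI : ∀ c ∈ P, ∀ z ∈ Z, (Λ + 4) * r < nm (c - z)) {a : ℤ × ℤ} (ha : a ∈ P)
    (h1 : 1 ≤ r') (hr : r' ≤ r) (hy : y ≤ 2 * r) : Off D (Rg a x y) (I r') := by
  intro ω ω' hh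
  have hΛr : r ≤ Λ * r := le_mul_of_one_le_left (by omega) hI.one
  refine hI.loc _ h1 hr ω ω' fun v hv => hh v ?_
  rintro ⟨-, hv1, hv2⟩
  rw [mem_biUnion] at hv
  obtain ⟨z, hz, hv⟩ := hv
  have h5 := nm_of_Bq hv
  have h6 := hfI a ha z hz
  have h7 := nm_tri' a v z
  have h8 := nm_comm a v
  have h10 : (nm (v - a) : ℝ) ≤ 2 * r := hv2.trans hy
  have h11 : nm (v - a) ≤ 2 * r := by exact_mod_cast h10
  have h12 : (Λ + 4) * r = Λ * r + 4 * r := by ring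
  omega

/-- The product of the local factors does not read the annuli around the points. -/
theorem TT_off (hI : ExtI Q D η I Z Λ E K C1 r)
    (hf : ∀ c ∈ P, ∀ c' ∈ P, c ≠ c' → 4 * r < nm (c - c'))
    (hfI : ∀ c ∈ P, ∀ z ∈ Z, (Λ + 4) * r < nm (c - z)) {a : ℤ × ℤ} (ha : a ∈ P)
    (h1 : 1 ≤ r') (hr : r' ≤ r) (hx : (r' : ℝ) ≤ x) (hy : y ≤ 2 * r) :
    Off D (Rg a x y) (TT w D I P r') :=
  Off.mul (I_off hI hfI ha h1 hr hy) (PT_offR hf ha hr (by omega) hx hy)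

/-- Two consecutive scales, from above. -/
theorem TT_up (hS : Sw A0 ℓ m₀ D C w η) (hs0 : A0 ≤ Real.exp (s / 2)) (hc0 : 0 < c0)
    (hP : P ⊆ C) (hI : ExtI Q D η I Z Λ E K C1 r) (h21 : r2 ≤ r1) (hr1 : r1 ≤ r) (hr2 : 1 ≤ r2)
    (hr : r ≤ ℓ) (hw : Wl w D P c0 r) (ω : Cfg) {Nf : ℤ × ℤ → ℕ}
    (hM : ∀ c ∈ P, MajA (Bq c r1) ((r2 : ℝ) / 16) ω (Nf c)) :
    TT w D I P r1 ω ≤ Real.exp (s / 2 * ((∑ c ∈ P, Nf c : ℕ) : ℝ)) * TT w D I P r2 ω := by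
  unfold TT
  have h3 := PT_up hS hs0 hc0 hP h21 (hr1.trans hr) (hw.mono hr1) ω hM
  calc I r1 ω * PT w D P r1 ω
      ≤ I r2 ω * (Real.exp (s / 2 * ((∑ c ∈ P, Nf c : ℕ) : ℝ)) * PT w D P r2 ω) :=
        mul_le_mul (hI.mono r2 r1 ω hr2 h21 hr1) h3 ((hw.mono hr1).pnonneg hc0.le ω)
          (hI.nn _ _ hr2 (h21.trans hr1))
    _ = _ := by ring

/-- Two consecutive scales, from below. -/
theorem TT_low (hS : Sw A0 ℓ m₀ D C w η) (hc0 : 0 < c0) (hc1 : c0 ≤ 1)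
    (hs1 : Real.exp (-(s / 4)) ≤ c0) (hP : P ⊆ C) (hQ : 0 < Q)
    (hI : ExtI Q D η I Z Λ E K C1 r) (h21 : r2 ≤ r1) (hr1 : r1 ≤ r) (hr21 : 1 ≤ r2)
    (hr2 : K ≤ r2) (h12 : r1 ≤ 2 * E * r2) (hr : r ≤ ℓ)
    (hfI : ∀ c ∈ P, ∀ z ∈ Z, (Λ + 4) * r < nm (c - z)) (hw : Wl w D P c0 r)
    {Nf : ℤ × ℤ → Cfg → ℕ} (hM : ∀ c ∈ P, ∀ ω, MajA (Bq c r1) ((r2 : ℝ) / 16) ω (Nf c ω)) :
    Ex Q D η (fun ω => TT w D I P r2 ω *
      Real.exp (-(s / 4 * ((∑ c ∈ P, Nf c ω : ℕ) : ℝ)))) ≤ C1 * Ex Q D η (TT w D I P r1) := by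
  have h3 : Ex Q D η (fun ω => TT w D I P r2 ω *
      Real.exp (-(s / 4 * ((∑ c ∈ P, Nf c ω : ℕ) : ℝ)))) ≤ Ex Q D η (fun ω =>
        I r2 ω * PT w D P r1 ω) := by
    refine Ex_mono hQ fun S _ => ?_
    have h4 := PT_low hS hc0 hc1 hs1 hP h21 (hr1.trans hr) (hw.mono hr1) (cf D η S)
      (fun c hc => hM c hc (cf D η S))
    have h5 := mul_le_mul_of_nonneg_left h4 (hI.nn r2 (cf D η S) hr21 (h21.trans hr1))
    unfold TT
    calc _ = _ := by ring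
      _ ≤ _ := h5
  refine h3.trans ?_
  refine hI.ext r2 r1 hr2 hr21 h21 hr1 h12 _ (fun ω => (hw.mono hr1).pnonneg hc0.le ω) ?_
  refine PT_off fun c hc z hz => ?_
  have h6 := hfI c hc z hz
  have h7 : Λ * r1 ≤ Λ * r := mul_le_mul_of_nonneg_left hr1 (by linarith [hI.one])
  have h8 : (Λ + 4) * r = Λ * r + 4 * r := by ring
  omega

end Vale.Agent.P167.N.AW
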