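import Vale.Agent.P167.N.AW.Main
import Vale.Agent.P167.N.H601.M.Top
import Vale.Agent.P167.H601.M.Core

/-!
# P167, `0 < q < 1`: local factors of an abstract weight, the large segments of the domain

`core`: exponential moments, weighted by the product of the local factors of macroscopic radius, of the
number of the large segments of the domain.
-/

set_option autoImplicit false

namespace Vale.Agent.P167.N.AW

open Finset
open Vale.Agent.P167 Vale.Agent.P167.BR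
open Vale.Agent.P167.FK (Bq Ex Good RSW cf)
open Vale.Agent.P167.FKA (Loc Ex_mono Ex_congr Ex_const Ex_mul_left Ex_nonneg)
open Vale.Agent.P167.H562.QM (MajA OneC)
open Vale.Agent.P167.H975 (TX TX_loc)
open Vale.Agent.P167.H601.LG (nm_of_Bq nm_tri' nm_comm)
open Vale.Agent.P167.H601.S2 (Rg Off off_of_loc TX_nonneg Bq_sub prod_cmp prod_cmp_low mom_prod
  rr rr_zero rr_succ rr_nonneg rr_le rr_anti rr_up rr_down exists_last)
open Vale.Agent.P167.H601.M (exists_s1 exists_n MajA_mono)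

variable {A0 c0 C1 C2 Q s x y : ℝ} {ℓ m₀ r r' r1 r2 K Λ : ℤ} {D C P Z : Finset (ℤ × ℤ)}
  {w : Finset Ed → ℝ} {η ω : Cfg} {E M ms : ℕ} {I : ℤ → Cfg → ℝ}

/-- The pieces with weight different from one which are in none of the boxes. -/
theorem card_zone (hS : Sw A0 ℓ m₀ D C w η) (hr' : r' ≤ ℓ) {t : ℝ} (ht : t ≤ r' / 16)
    (hM : MajA D t ω M) {S : Finset (Finset Ed)} (hSp : S ⊆ pcs ω D)
    (hw : ∀ A ∈ S, w A ≠ 1 ∧ ∀ c ∈ C, ¬ ∀ e ∈ A, hdv e ∈ Bq c r') : S.card ≤ M := by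
  refine card_maj hM hSp (fun A hA => hS.head ω A (hSp hA) (hw A hA).1) fun A hA => ?_
  obtain ⟨f, hf, f', hf', h5⟩ := hS.big ω A (hSp hA) (hw A hA).1 r' hr' (hw A hA).2
  exact ⟨f, hf, f', hf', ht.trans h5⟩

/-- One local factor at two radii. -/
theorem TX_upD (hS : Sw A0 ℓ m₀ D C w η) {c : ℤ × ℤ} (hc : c ∈ C) (h21 : r' ≤ r) (hr : r ≤ ℓ)
    (hw0 : ∀ A ∈ pcs ω D, (∀ e ∈ A, hdv e ∈ Bq c r) → 0 ≤ w A)
    {t : ℝ} (ht : t ≤ r' / 16) (hM : MajA D t ω M) :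
    TX w D c r ω ≤ A0 ^ M * TX w D c r' ω := by
  classical
  unfold TX
  refine prod_cmp (fun A _ h e he => Bq_sub h21 (h e he)) hS.one_le hw0
    (fun A hA _ => hS.le hA) ?_
  refine card_zone hS (h21.trans hr) ht hM (filter_subset _ _) fun A hA => ?_
  rw [mem_filter] at hA
  obtain ⟨hA1, ⟨hA2, hA3⟩, hA4⟩ := hA
  refine ⟨hA4, fun c' hc' hin => ?_⟩
  obtain ⟨e, he⟩ := pcs_nonempty hA1
  by_cases hcc : c = c'
  · subst hcc
    exact hA3 hin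
  · have h3 := hS.far c hc c' hc' hcc
    have h4 := nm_of_Bq (hin e he)
    have h5 := nm_of_Bq (hA2 e he)
    have h6 := nm_tri' c (hdv e) c'
    have h7 := nm_comm c (hdv e)
    have h8 : 0 ≤ nm (hdv e - c) := H825.Reg.nm_nn _
    omega

/-- The product at two radii. -/
theorem TT_upD (hS : Sw A0 ℓ m₀ D C w η) (hPc : P.card ≤ ms) (hP : P ⊆ C)
    (hI : ExtI Q D η I Z Λ E K C1 r) (h21 : r' ≤ r) (hr1 : 1 ≤ r') (hr : r ≤ ℓ) (hc0 : 0 ≤ c0)
    (hw : Wl w D P c0 r) {t : ℝ} (ht : t ≤ r' / 16) (hM : MajA D t ω M) :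
    TT w D I P r ω ≤ A0 ^ (ms * M) * TT w D I P r' ω := by
  have hPT : PT w D P r ω ≤ A0 ^ (ms * M) * PT w D P r' ω := by
    unfold PT
    calc ∏ c ∈ P, TX w D c r ω
        ≤ ∏ c ∈ P, (A0 ^ M * TX w D c r' ω) :=
          prod_le_prod (fun c hc => hw.nonneg hc0 hc ω) fun c hc =>
            TX_upD hS (hP hc) h21 hr (fun A hA h => hc0.trans (hw c hc ω A hA h)) ht hM
      _ = (A0 ^ M) ^ P.card * ∏ c ∈ P, TX w D c r' ω := by
          rw [prod_mul_distrib, prod_const]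
      _ ≤ _ := by
          refine mul_le_mul_of_nonneg_right ?_
            (prod_nonneg fun c hc => (hw.mono h21).nonneg hc0 hc ω)
          rw [← pow_mul, mul_comm ms M]
          exact pow_le_pow_right₀ hS.one_le (Nat.mul_le_mul_left M hPc)
  unfold TT
  calc I r ω * PT w D P r ω
      ≤ I r' ω * (A0 ^ (ms * M) * PT w D P r' ω) :=
        mul_le_mul (hI.mono r' r ω hr1 h21 le_rfl) hPT (hw.pnonneg hc0 ω) (hI.nn _ _ hr1 h21)
    _ = _ := by ring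

/-- The product does not read the squares of the domain off the boxes. -/
theorem TT_loc (hI : ExtI Q D η I Z Λ E K C1 r) (h1 : 1 ≤ r') (h2 : r' ≤ r) {x : ℝ}
    (hx : (r' : ℝ) ≤ x) {X : Finset (ℤ × ℤ)} (hX : P ⊆ X) (hZ : Z ⊆ X)
    (ω ω' : Cfg) (h : ∀ v, ¬ (v ∈ D ∧ ∀ y ∈ X, x < (nm (v - y) : ℝ)) → ω v = ω' v) :
    TT w D I P r' ω = TT w D I P r' ω' := by
  have hb : ∀ b ∈ P, TX w D b r' ω = TX w D b r' ω' := by
    intro b hb
    refine TX_loc _ _ _ _ ω ω' fun v hv => h v ?_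
    rintro ⟨-, hv1⟩
    have h5 := nm_of_Bq (mem_inter.1 hv).1
    have h6 := hv1 _ (hX hb)
    have h7 : (nm (v - b) : ℝ) ≤ r' := by exact_mod_cast h5
    linarith
  have hI' : I r' ω = I r' ω' := by
    refine hI.loc _ h1 h2 ω ω' fun v hv => h v ?_
    rintro ⟨-, hv1⟩
    rw [mem_biUnion] at hv
    obtain ⟨z, hz, hv⟩ := hv
    have h5 := nm_of_Bq hv
    have h6 := hv1 _ (hZ hz)
    have h7 : (nm (v - z) : ℝ) ≤ r' := by exact_mod_cast h5
    linarith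
  unfold TT PT
  rw [hI', prod_congr rfl hb]

/-- **Moments of the number of the large segments of the domain**, weighted by the local factors. -/
theorem core (hQ : Kit Q) (hR : RSW Q) (ms : ℕ) (hA0 : 1 ≤ A0)
    (hc0 : 0 < c0) (hc1 : c0 ≤ 1) {Rd σ : ℝ} (hRd : 0 ≤ Rd) (KE : ℕ → ℤ)
    (CE : ℕ → ℝ) (hCE : ∀ E, 1 ≤ CE E) {ρ : ℝ} (hρ : 0 < ρ)
    (hρσ : 16 * ρ < σ) {κ s : ℝ} (hκ : 0 < κ) (hs : 0 ≤ s) :
    ∃ (E : ℕ) (c C : ℝ) (n₀ : ℕ), 0 < c ∧ 0 < C ∧ ∀ n : ℕ, n₀ ≤ n →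
      ∀ {D CC : Finset (ℤ × ℤ)} {w : Finset Ed → ℝ} (P Z : Finset (ℤ × ℤ)) (x₀ : ℤ × ℤ),
      P.card ≤ ms → Z.card ≤ ms → (∀ v ∈ D, (nm (v - x₀) : ℝ) ≤ Rd * n) →
      ∀ z : ℤ × ℤ, ∃ Nf : Cfg → ℕ,
        (∀ ω ω' : Cfg, (∀ v : ℤ × ℤ, c * n < (nm (v - z) : ℝ) → ω v = ω' v) → Nf ω = Nf ω') ∧
        (∀ ω, MajA D (κ * n) ω (Nf ω)) ∧
        ∀ (I : ℤ → Cfg → ℝ) (Λ : ℤ) (η : Cfg), Sw A0 ⌊ρ * n⌋ ⌊σ * n⌋ D CC w η → P ⊆ CC →
          Wl w D P c0 ⌊ρ * n⌋ → ExtI Q D η I Z Λ E (KE E) (CE E) ⌊ρ * n⌋ →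
          (∀ c ∈ P, ∀ z ∈ Z, (Λ + 4) * ⌊ρ * n⌋ < nm (c - z)) →
          Ex Q D η (fun ω => TT w D I P ⌊ρ * n⌋ ω * Real.exp (s * (Nf ω : ℝ))) ≤
            C * Ex Q D η (TT w D I P ⌊ρ * n⌋) := by
  classical
  have hQ0 : 0 < Q := hQ.pos
  obtain ⟨s1, hs1, hsA, hsA', hsc, hss⟩ := exists_s1 hA0 hc0 hs ms
  obtain ⟨e1, he1, HT⟩ := N.H601.M.top_num hQ hR (ms + ms + 1)
  have hp : 0 < 1 + |2 * s1| := by positivity
  obtain ⟨E0, hE0⟩ := exists_nat_ge (32 * (1 + |2 * s1|) / e1)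
  obtain ⟨E, hE0E, hE2, HM⟩ := mom_main hQ hR ms hc0 hc1 hs1 hsA hsc E0
  have hE1 : 1 ≤ E := by omega
  have hE1' : (1 : ℝ) ≤ E := by exact_mod_cast hE1
  obtain ⟨K, hKE, hK1, HM⟩ := HM (KE E)
  -- the number of the scales
  obtain ⟨j, hj⟩ : ∃ j : ℕ, ρ / (32 * (E : ℝ) ^ j) ≤ κ := by
    have hE2' : (1 : ℝ) < E := by
      have : (2 : ℝ) ≤ E := by exact_mod_cast hE2
      linarith
    obtain ⟨j, hj⟩ := pow_unbounded_of_one_lt (ρ / κ) hE2'
    refine ⟨j, ?_⟩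
    rw [div_le_iff₀ (by positivity)]
    rw [div_lt_iff₀ hκ] at hj
    have : 0 ≤ κ * (E : ℝ) ^ j := by positivity
    nlinarith
  obtain ⟨κ', hκ'⟩ : ∃ κ' : ℝ, κ' = ρ / (32 * (E : ℝ) ^ j) := ⟨_, rfl⟩
  have hEj : 0 < (E : ℝ) ^ j := by positivity
  have hκ'0 : 0 < κ' := by rw [hκ']; positivity
  obtain ⟨C', n₁, hC', HT⟩ := HT κ' Rd (2 * s1) hκ'0 hRd
  obtain ⟨Y, hY1, HM⟩ := HM (CE E) (max 1 C') (hCE E) (le_trans zero_le_one (le_max_left _ _))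
  obtain ⟨n₂, hn₂⟩ := exists_n ρ σ hρ hρσ E hE1 K j
  have hCE0 : 0 ≤ CE E * Y := by
    have := hCE E
    positivity
  refine ⟨E, e1 * κ' / (1 + |2 * s1|), Y ^ 4 * (CE E * Y) ^ j, max (max n₁ n₂) 1, by positivity,
    by have := hCE E; positivity, fun n hn D CC w P Z x₀ hPc hZc hdia z => ?_⟩
  have hn1 : n₁ ≤ n := (le_max_left _ _).trans ((le_max_left _ _).trans hn)
  have hn2 : n₂ ≤ n := (le_max_right _ _).trans ((le_max_left _ _).trans hn)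
  have hn3 : 1 ≤ n := (le_max_right _ _).trans hn
  obtain ⟨-, r2, r3, r4, r5⟩ := hn₂ n hn2
  obtain ⟨X, hX⟩ : ∃ X : Finset (ℤ × ℤ), X = P ∪ Z ∪ {z} := ⟨_, rfl⟩
  have hXc : X.card ≤ ms + ms + 1 := by
    rw [hX]
    refine (card_union_le _ _).trans (add_le_add ((card_union_le _ _).trans
      (add_le_add hPc hZc)) ?_)
    rw [card_singleton]
  have hXP : P ⊆ X := by
    rw [hX]
    exact subset_union_left.trans subset_union_left
  have hXZ : Z ⊆ X := by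
    rw [hX]
    exact subset_union_right.trans subset_union_left
  have hXz : z ∈ X := by rw [hX]; simp
  obtain ⟨Nf, t1, t2, t3⟩ := HT n hn1 x₀ D hdia X hXc
  refine ⟨Nf, fun ω ω' h => t1 ω ω' fun v hv => h v (hv z hXz), fun ω => MajA_mono (t2 ω) ?_, ?_⟩
  · rw [hκ']
    exact mul_le_mul_of_nonneg_right hj (Nat.cast_nonneg n)
  intro I Λ η hS hP hw hI hfI
  obtain ⟨r, hr⟩ : ∃ r : ℤ, r = ⌊ρ * n⌋ := ⟨_, rfl⟩
  have hrn : (r : ℝ) ≤ ρ * n := by rw [hr]; exact Int.floor_le _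
  rw [← hr] at hS r2 r3 r4 hw hI hfI ⊢
  have hnpos : (1 : ℝ) ≤ n := by exact_mod_cast hn3
  have hr0 : 0 ≤ r := by
    rw [hr]
    exact Int.floor_nonneg.2 (by positivity)
  -- the scales
  have hle : ∀ i, rr r E i ≤ r := fun i => by
    have := rr_anti hr0 E (Nat.zero_le i)
    rwa [rr_zero] at this
  have hnn : ∀ i, 0 ≤ rr r E i := fun i => rr_nonneg hr0 E i
  have hΛ : 0 ≤ Λ + 4 := by have := hI.one; omega
  have hEpos : (0 : ℤ) < E := by exact_mod_cast (by omega : 0 < E)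
  have hone : ∀ i ≤ j, 1 ≤ rr r E i := fun i hi => by
    have h3 := r3 i hi
    have h4 : 1 * 1 ≤ (E : ℤ) * K := mul_le_mul (by omega) hK1 (by norm_num) hEpos.le
    omega
  have hstep : ∀ i ≤ j, ∀ N0 : Cfg → ℝ, (∀ ω, 0 ≤ N0 ω) →
      Ex Q D η (fun ω => TT w D I P (rr r E i / E) ω * Real.exp (2 * s1 * N0 ω)) ≤
        max 1 C' * Ex Q D η (TT w D I P (rr r E i / E)) →
      Ex Q D η (fun ω => TT w D I P (rr r E i) ω * Real.exp (s1 * N0 ω)) ≤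
        Y ^ 4 * Ex Q D η (TT w D I P (rr r E i)) ∧
      Ex Q D η (TT w D I P (rr r E i / E)) ≤ CE E * Y * Ex Q D η (TT w D I P (rr r E i)) := by
    intro i hi N0 hN0 hM0
    have h4 := hle i
    have := HM hS P hP hPc (rr r E i) (r3 i hi) h4 (by omega)
      (hw.mono h4) I Z Λ (ExtI.le_r (ExtI.le_K hI hKE) h4) (fun a ha b hb => ?_) N0 hN0 hM0
    · exact ⟨this.1, this.2.1⟩
    · exact lt_of_le_of_lt (mul_le_mul_of_nonneg_left h4 hΛ) (hfI a ha b hb)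
  -- the moments at the last scale
  have hEK : E * K ≤ rr r E j := r3 j le_rfl
  have hKi : ∀ i ≤ j, K ≤ rr r E (i + 1) := fun i hi => by
    rw [rr_succ, Int.le_ediv_iff_mul_le hEpos, mul_comm]
    exact r3 i hi
  have hT0 : ∀ i ≤ j + 1, ∀ ω, 0 ≤ TT w D I P (rr r E i) ω := fun i hi ω => by
    refine mul_nonneg (hI.nn _ _ ?_ (hle i)) ((hw.mono (hle i)).pnonneg hc0.le ω)
    rcases i with _ | i
    · exact hone 0 (Nat.zero_le _)
    · exact hK1.trans (hKi i (by omega))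
  -- comparison of the scales
  have hiter : ∀ i ≤ j, Ex Q D η (TT w D I P (rr r E i)) ≤
      (CE E * Y) ^ i * Ex Q D η (TT w D I P r) := by
    intro i
    induction i with
    | zero =>
      intro _
      rw [rr_zero, pow_zero, one_mul]
    | succ i ih =>
      intro hi
      have h3 := (hstep i (by omega) (fun _ => 0) (fun _ => le_rfl) (by
        simp only [mul_zero, Real.exp_zero, mul_one]
        refine le_mul_of_one_le_left (Ex_nonneg hQ0 fun S _ => ?_) (le_max_left _ _)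
        rw [← rr_succ]
        exact hT0 (i + 1) (by omega) _)).2
      rw [rr_succ]
      refine h3.trans ?_
      have h5 := mul_le_mul_of_nonneg_left (ih (by omega)) hCE0
      have h6 : CE E * Y * ((CE E * Y) ^ i * Ex Q D η (TT w D I P r)) =
          (CE E * Y) ^ (i + 1) * Ex Q D η (TT w D I P r) := by ring
      rwa [h6] at h5
  have hKj : K ≤ rr r E (j + 1) := hKi j le_rfl
  have hrad : (rr r E (j + 1) : ℝ) ≤ e1 * κ' / (1 + |2 * s1|) * n := by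
    have h3 : (rr r E (j + 1) : ℝ) * (E : ℝ) ^ (j + 1) ≤ r := by
      have h4 : rr r E (j + 1) * (E : ℤ) ^ (j + 1) ≤ r := by
        unfold rr
        exact Int.ediv_mul_le _ (by positivity)
      exact_mod_cast h4
    have h5 : 32 * (1 + |2 * s1|) / e1 ≤ E := hE0.trans (by exact_mod_cast hE0E)
    rw [div_le_iff₀ he1] at h5
    have h6 : (rr r E (j + 1) : ℝ) * (E : ℝ) ^ (j + 1) ≤ ρ * n := h3.trans hrn
    rw [hκ']
    have h7 : e1 * (ρ / (32 * (E : ℝ) ^ j)) / (1 + |2 * s1|) * n =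
        (ρ * n) * e1 / (32 * (E : ℝ) ^ j * (1 + |2 * s1|)) := by
      field_simp
    rw [h7, le_div_iff₀ (by positivity)]
    have h8 : (rr r E (j + 1) : ℝ) * (32 * (E : ℝ) ^ j * (1 + |2 * s1|)) =
        ((rr r E (j + 1) : ℝ) * (E : ℝ) ^ j) * (32 * (1 + |2 * s1|)) := by ring
    rw [h8]
    have h9 : (0 : ℝ) ≤ (rr r E (j + 1) : ℝ) * (E : ℝ) ^ j := by
      have : (0 : ℝ) ≤ rr r E (j + 1) := by exact_mod_cast hnn (j + 1)
      positivity
    calc ((rr r E (j + 1) : ℝ) * (E : ℝ) ^ j) * (32 * (1 + |2 * s1|))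
        ≤ ((rr r E (j + 1) : ℝ) * (E : ℝ) ^ j) * (E * e1) := mul_le_mul_of_nonneg_left h5 h9
      _ = ((rr r E (j + 1) : ℝ) * (E : ℝ) ^ (j + 1)) * e1 := by ring
      _ ≤ (ρ * n) * e1 := mul_le_mul_of_nonneg_right h6 he1.le
  have htop : Ex Q D η (fun ω => TT w D I P (rr r E j / E) ω *
        Real.exp (2 * s1 * (Nf ω : ℝ))) ≤ max 1 C' * Ex Q D η (TT w D I P (rr r E j / E)) := by
    rw [← rr_succ]
    refine (t3 η ⌊σ * n⌋ hS.good hS.one (by rw [hκ']; exact r5)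
      (TT w D I P (rr r E (j + 1))) (hT0 _ le_rfl) ?_).trans ?_
    · exact TT_loc hI (hK1.trans hKj) (hle _) hrad hXP hXZ
    · exact mul_le_mul_of_nonneg_right (le_max_right _ _)
        (Ex_nonneg hQ0 fun S _ => hT0 _ le_rfl _)
  have hlast := (hstep j le_rfl (fun ω => (Nf ω : ℝ)) (fun ω => Nat.cast_nonneg _) htop).1
  -- assembly
  have hup : ∀ ω, TT w D I P r ω * Real.exp (s * (Nf ω : ℝ)) ≤
      TT w D I P (rr r E j) ω * Real.exp (s1 * (Nf ω : ℝ)) := by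
    intro ω
    have h3 := TT_upD (ω := ω) (r' := rr r E j) hS hPc hP hI (hle j)
      (hone j le_rfl) le_rfl hc0.le hw (t := κ' * n) (by rw [hκ']; exact r4) (t2 ω)
    have h4 : A0 ^ (ms * Nf ω) ≤ Real.exp (s1 / 2 * (Nf ω : ℝ)) := by
      rw [pow_mul, mul_comm (s1 / 2), Real.exp_nat_mul]
      exact pow_le_pow_left₀ (by positivity) hsA' _
    have h5 : Real.exp (s * (Nf ω : ℝ)) ≤ Real.exp (s1 / 2 * (Nf ω : ℝ)) :=
      Real.exp_le_exp.2 (mul_le_mul_of_nonneg_right hss (Nat.cast_nonneg _))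
    have h6 : Real.exp (s1 * (Nf ω : ℝ)) =
        Real.exp (s1 / 2 * (Nf ω : ℝ)) * Real.exp (s1 / 2 * (Nf ω : ℝ)) := by
      rw [← Real.exp_add]
      congr 1
      ring
    rw [h6]
    calc TT w D I P r ω * Real.exp (s * (Nf ω : ℝ))
        ≤ (A0 ^ (ms * Nf ω) * TT w D I P (rr r E j) ω) * Real.exp (s * (Nf ω : ℝ)) :=
          mul_le_mul_of_nonneg_right h3 (Real.exp_pos _).le
      _ ≤ (Real.exp (s1 / 2 * (Nf ω : ℝ)) * TT w D I P (rr r E j) ω) *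
          Real.exp (s1 / 2 * (Nf ω : ℝ)) :=
          mul_le_mul (mul_le_mul_of_nonneg_right h4 (hT0 _ (Nat.le_succ _) _)) h5
            (Real.exp_pos _).le
            (mul_nonneg (Real.exp_pos _).le (hT0 _ (Nat.le_succ _) _))
      _ = _ := by ring
  calc Ex Q D η (fun ω => TT w D I P r ω * Real.exp (s * (Nf ω : ℝ)))
      ≤ Ex Q D η (fun ω => TT w D I P (rr r E j) ω *
          Real.exp (s1 * (Nf ω : ℝ))) := Ex_mono hQ0 fun S _ => hup _
    _ ≤ Y ^ 4 * Ex Q D η (TT w D I P (rr r E j)) := hlast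
    _ ≤ Y ^ 4 * ((CE E * Y) ^ j * Ex Q D η (TT w D I P r)) :=
        mul_le_mul_of_nonneg_left (hiter j le_rfl) (by positivity)
    _ = _ := by ring

end Vale.Agent.P167.N.AW
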