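import Vale.Agent.P167.N.AW.Low

/-!
# P167, `0 < q < 1`: local factors of an abstract weight, the general lower bound

`l_gen`: the expectation of the product of all the weights is bounded below by the product of the
expectations of the local factors. `P`: centres with positive weights, `Z`: killed centres; `H`: a part
of the configurations on which there is no small weight.
-/

set_option autoImplicit false

namespace Vale.Agent.P167.N.AW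

open Finset
open Vale.Agent.P167 Vale.Agent.P167.BR
open Vale.Agent.P167.FK (Bq Ex Good RSW cf)
open Vale.Agent.P167.FKA (Loc Ind Ex_mono Ex_congr Ex_const Ex_mul_left Ex_nonneg)
open Vale.Agent.P167.H562.QM (MajA OneC)
open Vale.Agent.P167.H975 (TX TX_loc)
open Vale.Agent.P167.H365.NQ (XW)
open Vale.Agent.P167.H167.Q (MxA)
open Vale.Agent.P167.H945.L (floor_half low_abs)
open Vale.Agent.P167.H601.LG (nm_of_Bq nm_tri' nm_comm)
open Vale.Agent.P167.H601.S2 (Rg Off off_of_loc TX_nonneg Bq_sub prod_cmp prod_cmp_low mom_prod)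

variable {A0 c0 C1 C2 Q s x y : ℝ} {ℓ m₀ r r' R r1 r2 K Λ : ℤ} {D C P Z : Finset (ℤ × ℤ)}
  {w : Finset Ed → ℝ} {η ω : Cfg} {E M ms : ℕ} {I : ℤ → Cfg → ℝ}

/-- The constant `s`. -/
theorem exists_s (hA0 : 1 ≤ A0) (hc0 : 0 < c0) (hc1 : c0 ≤ 1) :
    ∃ s : ℝ, 0 < s ∧ A0 ≤ Real.exp (s / 2) ∧ Real.exp (-(s / 4)) ≤ c0 := by
  have hA : 0 < A0 := by linarith
  have hl : 0 ≤ Real.log A0 := Real.log_nonneg hA0
  have hl' : Real.log c0 ≤ 0 := Real.log_nonpos hc0.le hc1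
  refine ⟨2 * Real.log A0 - 4 * Real.log c0 + 1, by linarith, ?_, ?_⟩
  · calc A0 = Real.exp (Real.log A0) := (Real.exp_log hA).symm
      _ ≤ _ := Real.exp_le_exp.2 (by linarith)
  · calc _ ≤ Real.exp (Real.log c0) := Real.exp_le_exp.2 (by linarith)
      _ = c0 := Real.exp_log hc0

/-- Finitely many points as the values of a sequence. -/
theorem exists_enum {P : Finset (ℤ × ℤ)} (hP : P.card ≤ ms) :
    ∃ x : Fin ms → ℤ × ℤ, ∀ c ∈ P, ∃ i, x i = c := by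
  classical
  refine ⟨fun i => if h : (i : ℕ) < P.card then (P.equivFin.symm ⟨i, h⟩ : ℤ × ℤ) else 0,
    fun j hj => ?_⟩
  have h1 := (P.equivFin ⟨j, hj⟩).2
  refine ⟨⟨(P.equivFin ⟨j, hj⟩ : ℕ), h1.trans_le hP⟩, ?_⟩
  simp only [Fin.eta, h1, dite_true, Equiv.symm_apply_apply]

/-- **A bound of an expectation, times separated local factors.** -/
theorem mom_split (hQ : Kit Q) (hη : Good η) {F : ℤ × ℤ → Cfg → ℝ} {G1 G2 : Cfg → ℝ}
    (I : Finset (ℤ × ℤ)) (hM : ∀ i ∈ I, MxA Q D η i r R (1 / 2))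
    (hF0 : ∀ i ∈ I, ∀ ω, 0 ≤ F i ω) (hF : ∀ i ∈ I, Loc (Bq i r ∩ D) (F i))
    (hd : ∀ i ∈ I, ∀ j ∈ I, i ≠ j → Disjoint (Bq i R) (Bq j r))
    (hG1 : ∀ ω, 0 ≤ G1 ω) (hG1I : ∀ i ∈ I, Ind (Bq i R ∩ D) G1)
    (hG2 : ∀ ω, 0 ≤ G2 ω) (hG2I : ∀ i ∈ I, Ind (Bq i R ∩ D) G2) {Y : ℝ} (hY : 0 ≤ Y)
    (h : Ex Q D η G1 ≤ Y * Ex Q D η G2) :
    Ex Q D η (fun ω => G1 ω * ∏ i ∈ I, F i ω) ≤
      3 ^ I.card * Y * Ex Q D η (fun ω => G2 ω * ∏ i ∈ I, F i ω) := by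
  have hQ0 : 0 < Q := hQ.pos
  have h1 := (N.H975.ex_prod_G hQ (by norm_num) (by norm_num) hη (fun i : ℤ × ℤ => i) F G1 I
    hM hF0 hF hd hG1 hG1I).2
  have h2 := (N.H975.ex_prod_G hQ (by norm_num) (by norm_num) hη (fun i : ℤ × ℤ => i) F G2 I
    hM hF0 hF hd hG2 hG2I).1
  set p := ∏ i ∈ I, Ex Q D η (F i) with hp
  have hp0 : 0 ≤ p := prod_nonneg fun i hi => Ex_nonneg hQ0 fun S _ => hF0 i hi _
  have h3 : (1 + 1 / 2 : ℝ) ^ I.card = 3 ^ I.card * (1 - 1 / 2 : ℝ) ^ I.card := by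
    rw [← mul_pow]
    norm_num
  rw [h3] at h1
  have h4 : Ex Q D η G1 * p ≤ Y * (Ex Q D η G2 * p) := by
    have := mul_le_mul_of_nonneg_right h hp0
    linarith
  calc _ ≤ _ := h1
    _ ≤ 3 ^ I.card * (1 - 1 / 2 : ℝ) ^ I.card * (Y * (Ex Q D η G2 * p)) :=
        mul_le_mul_of_nonneg_left h4 (by positivity)
    _ = 3 ^ I.card * Y * ((1 - 1 / 2 : ℝ) ^ I.card * (Ex Q D η G2 * p)) := by ring
    _ ≤ _ := mul_le_mul_of_nonneg_left h2 (by positivity)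

/-- **The general lower bound.** -/
theorem l_gen (hQ : Kit Q) (hR : RSW Q) (ms : ℕ) (hA0 : 1 ≤ A0) {c₁ b B Rd σ ρ₀ Km : ℝ}
    (hc₁ : 0 < c₁) (hb : 0 < b) (hb1 : b ≤ 1) (hB : 1 ≤ B) (hRd : 0 ≤ Rd) (hρ₀ : 0 < ρ₀) (hρσ : 100 * ρ₀ ≤ σ) (hKm : 0 < Km) {ρ : ℝ}
    (hρ : 0 < ρ) (hρρ : ρ ≤ ρ₀) : ∃ ε : ℝ, 0 < ε ∧ ε ≤ ρ ∧ ∀ c₂ : ℝ, 0 < c₂ →
    ∃ (c : ℝ) (n₀ : ℕ), 0 < c ∧ ∀ n : ℕ, n₀ ≤ n → ∀ {D : Finset (ℤ × ℤ)} {w : Finset Ed → ℝ}
      {η : Cfg} (P Z : Finset (ℤ × ℤ)) (x₀ : ℤ × ℤ),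
    Sw A0 ⌊ρ₀ * n⌋ ⌊σ * n⌋ D (P ∪ Z) w η → Disjoint P Z → (P ∪ Z).card ≤ ms →
    (∀ v ∈ D, (nm (v - x₀) : ℝ) ≤ Rd * n) →
    (∀ c ∈ P ∪ Z, ∀ r : ℤ, 1 ≤ r → Km * r ≤ ⌊ρ₀ * n⌋ → MxA Q D η c r ⌊ρ₀ * n⌋ (1 / 2)) →
    Wl w D P c₁ ⌊ρ₀ * n⌋ →
    (∀ c ∈ Z, ∃ I : ℤ → Cfg → ℝ, Kil b B w D c I ⌊ρ₀ * n⌋) →
    (∀ ω, 0 ≤ XW D w ω) →
    ∀ H : Cfg → ℝ, (∀ ω, 0 ≤ H ω ∧ H ω ≤ 1) →
      (∀ ω, H ω ≠ 0 → PT w D Z ⌊ε * n⌋ ω ≠ 0 → ∀ A ∈ pcs ω D, c₁ ≤ w A) →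
      (∀ F : Cfg → ℝ, (∀ ω, 0 ≤ F ω) → Loc (D ∩ P.biUnion fun c => Bq c ⌊ε * n⌋) F →
        c₂ * Ex Q D η (fun ω => F ω * PT w D Z ⌊ε * n⌋ ω) ≤
          Ex Q D η (fun ω => F ω * PT w D Z ⌊ε * n⌋ ω * H ω)) →
      c * ∏ c ∈ P ∪ Z, Ex Q D η (TX w D c ⌊ρ * n⌋) ≤ Ex Q D η (XW D w) := by
  classical
  have hQ0 : 0 < Q := hQ.pos
  obtain ⟨c0, hc0d⟩ : ∃ c0 : ℝ, c0 = min c₁ 1 := ⟨_, rfl⟩
  have hc0 : 0 < c0 := by rw [hc0d]; exact lt_min hc₁ one_pos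
  have hc1 : c0 ≤ 1 := by rw [hc0d]; exact min_le_right _ _
  have hc01 : c0 ≤ c₁ := by rw [hc0d]; exact min_le_left _ _
  obtain ⟨s, hs, hs0, hs1⟩ := exists_s hA0 hc0 hc1
  obtain ⟨e, Cb, nb, he, hCb, Hb⟩ := N.H945.L.exists_big hQ hR ms (R := Rd) (σ := σ) hρ₀ hRd
    (by linarith)
  obtain ⟨ε, hεd⟩ : ∃ ε : ℝ, ε = min (min ρ e) (ρ₀ / (2 * Km)) := ⟨_, rfl⟩
  have hε : 0 < ε := by
    rw [hεd]
    exact lt_min (lt_min hρ he) (by positivity)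
  have hερ : ε ≤ ρ := by rw [hεd]; exact (min_le_left _ _).trans (min_le_left _ _)
  have hεe : ε ≤ e := by rw [hεd]; exact (min_le_left _ _).trans (min_le_right _ _)
  have hεK : ε ≤ ρ₀ / (2 * Km) := by rw [hεd]; exact min_le_right _ _
  rw [le_div_iff₀ (by positivity)] at hεK
  obtain ⟨K, Y, hY, HP⟩ := exists_mom hQ hR ms hc0 hc1 hs hs0 hs1 (Λ := 2 * ρ₀ / ε)
    (by positivity)
  refine ⟨ε, hε, hερ, fun c₂ hc₂ => ?_⟩
  obtain ⟨m, hm⟩ := exists_nat_ge (max 1 (2 * (Cb + 3 ^ ms * Y / s) / c₂))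
  have hm1 : 1 ≤ m := by
    have : (1 : ℝ) ≤ m := (le_max_left _ _).trans hm
    exact_mod_cast this
  have hm2 : Cb + 3 ^ ms * Y / s ≤ c₂ / 2 * m := by
    have h3 := (le_max_right _ _).trans hm
    rw [div_le_iff₀ hc₂] at h3
    linarith
  obtain ⟨n₀, hn₀⟩ := exists_nat_ge (max nb (2 * max K 2 / ε))
  have hBb : 1 ≤ B / b := by
    rw [le_div_iff₀ hb]
    linarith
  have hB0 : 0 < B := by linarith
  have hY1 : 1 ≤ max (B / b) Y := hBb.trans (le_max_left _ _)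
  refine ⟨c0 ^ m * (c₂ / 2) * ((b / B) ^ ms * ((1 / 2) ^ ms / max (B / b) Y ^ ms)), n₀,
    by positivity, ?_⟩
  intro n hn D w η P Z x₀ hS hdis hcard hx₀ hMxA hwP hZ hXW H hH hH1 hH2
  -- the radii
  have hnn : (n₀ : ℝ) ≤ n := by exact_mod_cast hn
  have hn0 : (0 : ℝ) ≤ n := Nat.cast_nonneg n
  have hnb : nb ≤ n := ((le_max_left _ _).trans hn₀).trans hnn
  have hnK := ((le_max_right _ _).trans hn₀).trans hnn
  rw [div_le_iff₀ hε] at hnK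
  have hKn : 2 * K ≤ ε * n := by
    have := le_max_left K 2
    linarith
  have h4n : 4 ≤ ε * n := by
    have := le_max_right K 2
    linarith
  have hερn : ε * n ≤ ρ * n := mul_le_mul_of_nonneg_right hερ hn0
  have hρρn : ρ * n ≤ ρ₀ * n := mul_le_mul_of_nonneg_right hρρ hn0
  have hρσn : 100 * (ρ₀ * n) ≤ σ * n := by
    have := mul_le_mul_of_nonneg_right hρσ hn0
    linarith
  obtain ⟨r, hr⟩ : ∃ r : ℤ, r = ⌊ε * n⌋ := ⟨_, rfl⟩
  obtain ⟨r1, hr1⟩ : ∃ r1 : ℤ, r1 = ⌊ρ * n⌋ := ⟨_, rfl⟩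
  obtain ⟨L, hL⟩ : ∃ L : ℤ, L = ⌊ρ₀ * n⌋ := ⟨_, rfl⟩
  rw [← hr] at hH1 hH2
  rw [← hL] at hwP hZ hS hMxA
  rw [← hr1]
  have hr_le : (r : ℝ) ≤ ε * n := by rw [hr]; exact Int.floor_le _
  have hr_ge : ε * n / 2 ≤ r := by rw [hr]; exact floor_half (by linarith)
  have hL_le : (L : ℝ) ≤ ρ₀ * n := by rw [hL]; exact Int.floor_le _
  have hL_ge : ρ₀ * n / 2 ≤ L := by rw [hL]; exact floor_half (by linarith)
  have hrr1 : r ≤ r1 := by rw [hr, hr1]; exact Int.floor_le_floor hερn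
  have hr1B : r1 ≤ L := by rw [hr1, hL]; exact Int.floor_le_floor hρρn
  have hr2 : (2 : ℝ) ≤ r := by linarith
  have hr2' : 2 ≤ r := by exact_mod_cast hr2
  have hKr : K ≤ r := by linarith
  have hσ_ge : σ * n / 2 ≤ (⌊σ * n⌋ : ℝ) := floor_half (by linarith)
  have hBσ : 40 * L ≤ ⌊σ * n⌋ := by
    have : ((40 * L : ℤ) : ℝ) ≤ (⌊σ * n⌋ : ℝ) := by
      push_cast
      linarith
    exact_mod_cast this
  have hB2 : 2 ≤ L := hr2'.trans (hrr1.trans hr1B)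
  have hBr : (L : ℝ) ≤ 2 * ρ₀ / ε * r := by
    have h3 : 2 * ρ₀ / ε * (ε * n / 2) ≤ 2 * ρ₀ / ε * r :=
      mul_le_mul_of_nonneg_left hr_ge (by positivity)
    have h4 : 2 * ρ₀ / ε * (ε * n / 2) = ρ₀ * n := by field_simp
    linarith
  have hKmB : Km * r ≤ L := by
    have h3 : Km * r ≤ Km * (ε * n) := mul_le_mul_of_nonneg_left hr_le hKm.le
    have h4 : ε * (2 * Km) * n ≤ ρ₀ * n := mul_le_mul_of_nonneg_right hεK hn0
    linarith
  -- the centres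
  have hPc : P.card ≤ ms := (card_le_card subset_union_left).trans hcard
  have hZc : Z.card ≤ ms := (card_le_card subset_union_right).trans hcard
  have hfar : ∀ i ∈ P ∪ Z, ∀ j ∈ P ∪ Z, i ≠ j → 4 * L < nm (i - j) := hS.far
  have hdj : ∀ i ∈ P ∪ Z, ∀ j ∈ P ∪ Z, i ≠ j → Disjoint (Bq i L) (Bq j r) :=
    fun i hi j hj hij => box_disj hS hi hj hij le_rfl (by omega)
  have hMx : ∀ i ∈ P ∪ Z, MxA Q D η i r L (1 / 2) := fun i hi =>
    hMxA i hi r (by omega) hKmB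
  -- the local products
  have hwl : Wl w D P c0 L := fun j hj ω A hA hA' => hc01.trans (hwP j hj ω A hA hA')
  have hT0P : ∀ j ∈ P, ∀ r' ≤ L, ∀ ω, 0 ≤ TX w D j r' ω := fun j hj r' hr' ω =>
    (hwl.mono hr').nonneg hc0.le hj ω
  have hT0Z : ∀ j ∈ Z, ∀ r' ≤ L, 1 ≤ r' → ∀ ω, 0 ≤ TX w D j r' ω ∧ TX w D j r' ω ≤ B :=
    fun j hj r' hr' hr1' ω => by
      obtain ⟨I, hI⟩ := hZ j hj
      exact ⟨hI.nonneg hb.le hr1' hr' ω, hI.le hB0.le hr1' hr' ω⟩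
  have hrB : r ≤ L := hrr1.trans hr1B
  have hT0 : ∀ j ∈ P ∪ Z, ∀ ω, 0 ≤ TX w D j r ω := by
    intro j hj ω
    rcases mem_union.1 hj with h | h
    · exact hT0P j h r hrB ω
    · exact (hT0Z j h r hrB (by omega) ω).1
  have hloc : ∀ j : ℤ × ℤ, Loc (Bq j r ∩ D) (TX w D j r) := fun j => TX_loc _ _ _ _
  obtain ⟨Pf, hPf⟩ : ∃ Pf : Cfg → ℝ, Pf = PT w D P r := ⟨_, rfl⟩
  have hPfe : ∀ ω, Pf ω = ∏ j ∈ P, TX w D j r ω := fun ω => by rw [hPf]; rfl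
  have hPf0 : ∀ ω, 0 ≤ Pf ω := fun ω => by
    rw [hPfe]
    exact prod_nonneg fun j hj => hT0 j (mem_union_left _ hj) ω
  have hBms : 0 < B ^ ms := pow_pos hB0 _
  have hJ0 : ∀ ω, 0 ≤ PT w D Z r ω ∧ PT w D Z r ω ≤ B ^ ms := fun ω =>
    ⟨prod_nonneg fun j hj => (hT0Z j hj r hrB (by omega) ω).1, by
      calc PT w D Z r ω ≤ ∏ _j ∈ Z, B :=
            prod_le_prod (fun j hj => (hT0Z j hj r hrB (by omega) ω).1)
              fun j hj => (hT0Z j hj r hrB (by omega) ω).2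
        _ = B ^ Z.card := prod_const _
        _ ≤ _ := pow_le_pow_right₀ hB hZc⟩
  have hGe : ∀ ω, Pf ω * PT w D Z r ω = ∏ j ∈ P ∪ Z, TX w D j r ω := fun ω => by
    rw [hPfe, prod_union hdis]
    rfl
  -- the numbers
  obtain ⟨Nf, N1, N2, N3⟩ := HP hS P subset_union_left hPc r L hKr
    (by omega) hrB hBr le_rfl (by omega) hwl
  obtain ⟨x, hx⟩ := exists_enum hcard
  obtain ⟨Nb, B1, B2⟩ := Hb n hnb D x₀ hx₀ x
  have hbig : Ex Q D η (fun ω => Pf ω * PT w D Z r ω * Real.exp (Nb ω : ℝ)) ≤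
      Cb * Ex Q D η (fun ω => Pf ω * PT w D Z r ω) := by
    refine B2 η hS.good hS.one _ (fun ω => mul_nonneg (hPf0 ω) (hJ0 ω).1)
      fun ω ω' hω => ?_
    rw [hGe, hGe]
    refine prod_congr rfl fun j hj => hloc j ω ω' fun v hv => hω v ?_
    rintro ⟨-, hv'⟩
    obtain ⟨i, hi⟩ := hx j hj
    have h3 := hv' i
    rw [hi] at h3
    have h4 : (nm (v - j) : ℝ) ≤ r := by
      exact_mod_cast nm_of_Bq (mem_inter.1 hv).1
    have h5 : ε * n ≤ e * n := mul_le_mul_of_nonneg_right hεe hn0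
    linarith
  have hp : Ex Q D η (fun ω => Pf ω * PT w D Z r ω *
      Real.exp (s * ((∑ i ∈ P, Nf i ω : ℕ) : ℝ))) ≤
        3 ^ ms * Y * Ex Q D η (fun ω => Pf ω * PT w D Z r ω) := by
    have hIndP : ∀ i ∈ Z, Ind (Bq i L ∩ D) Pf := by
      intro i hi ω ω' hω
      rw [hPfe, hPfe]
      refine prod_congr rfl fun j hj => hloc j ω ω' fun v hv => hω v fun hv' => ?_
      have hne : i ≠ j := fun h => disjoint_left.1 hdis hj (h ▸ hi)
      exact disjoint_left.1 (hdj i (mem_union_right _ hi) j (mem_union_left _ hj) hne)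
        (mem_inter.1 hv').1 (mem_inter.1 hv).1
    have hIndN : ∀ i ∈ Z, Ind (Bq i L ∩ D)
        (fun ω => Real.exp (s * ((∑ i ∈ P, Nf i ω : ℕ) : ℝ))) := by
      intro i hi ω ω' hω
      have h3 : ∑ j ∈ P, Nf j ω = ∑ j ∈ P, Nf j ω' := by
        refine sum_congr rfl fun j hj => N2 j hj ω ω' fun v hv => hω v fun hv' => ?_
        have hne : i ≠ j := fun h => disjoint_left.1 hdis hj (h ▸ hi)
        have h3 := hfar i (mem_union_right _ hi) j (mem_union_left _ hj) hne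
        have h4 := nm_of_Bq (mem_inter.1 hv').1
        have h6 := nm_tri' i v j
        have h7 := nm_comm i v
        omega
      show Real.exp _ = Real.exp _
      rw [h3]
    have hkey := mom_split hQ hS.good (r := r) (R := L) (F := fun j => TX w D j r)
      (G1 := fun ω => Pf ω * Real.exp (s * ((∑ i ∈ P, Nf i ω : ℕ) : ℝ))) (G2 := Pf) Z
      (fun i hi => hMx i (mem_union_right _ hi)) (fun i hi => hT0 i (mem_union_right _ hi))
      (fun i _ => hloc i)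
      (fun i hi j hj => hdj i (mem_union_right _ hi) j (mem_union_right _ hj))
      (fun ω => mul_nonneg (hPf0 ω) (Real.exp_pos _).le)
      (fun i hi ω ω' hω => by
        exact congrArg₂ (· * ·) (hIndP i hi ω ω' hω) (hIndN i hi ω ω' hω))
      hPf0 hIndP hY.le (by
        rw [hPf]
        exact N3 P (Subset.refl P))
    have hGJ : 0 ≤ Ex Q D η (fun ω => Pf ω * PT w D Z r ω) :=
      Ex_nonneg hQ0 fun S _ => mul_nonneg (hPf0 _) (hJ0 _).1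
    calc _ = Ex Q D η (fun ω => (Pf ω *
          Real.exp (s * ((∑ i ∈ P, Nf i ω : ℕ) : ℝ))) * ∏ i ∈ Z, TX w D i r ω) := by
          refine Ex_congr fun S _ => ?_
          unfold PT
          ring
      _ ≤ _ := hkey
      _ ≤ _ := by
          refine mul_le_mul_of_nonneg_right ?_ hGJ
          exact mul_le_mul_of_nonneg_right (pow_le_pow_right₀ (by norm_num) hZc) hY.le
  -- the lower bound
  have hbms : b ^ ms ≤ b ^ Z.card := pow_le_pow_of_le_one hb.le hb1 hZc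
  have hlow : ∀ ω, PT w D Z r ω / B ^ ms ≠ 0 → H ω ≠ 0 →
      c0 ^ (Nb ω + ∑ i ∈ P, Nf i ω) * (Pf ω * b ^ ms) ≤ XW D w ω := by
    intro ω hJ hHω
    have hw := hH1 ω hHω fun h => hJ (by rw [h, zero_div])
    have hZ1 : ∀ j ∈ Z, b ≤ TX w D j L ω := by
      intro j hj
      obtain ⟨I, hI⟩ := hZ j hj
      refine hI.pos (by omega) le_rfl ?_
      unfold TX
      refine prod_pos fun A hA => ?_
      rw [mem_filter] at hA
      exact hc₁.trans_le (hw A hA.1)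
    refine le_trans ?_ (XW_low hS rfl hdis hrB le_rfl hc0 hc1 (fun A hA => hc01.trans (hw A hA))
      hb.le hZ1 (by rw [hL]; exact B1 ω) fun j hj => N1 j hj ω)
    rw [← hPfe]
    exact mul_le_mul_of_nonneg_left (mul_le_mul_of_nonneg_left hbms (hPf0 ω))
      (pow_nonneg hc0.le _)
  have hscale : ∀ G : Cfg → ℝ, Ex Q D η (fun ω => Pf ω * b ^ ms * (PT w D Z r ω / B ^ ms) * G ω) =
      b ^ ms / B ^ ms * Ex Q D η (fun ω => Pf ω * PT w D Z r ω * G ω) := by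
    intro G
    rw [← Ex_mul_left]
    refine Ex_congr fun S _ => ?_
    field_simp
  have hscale1 : Ex Q D η (fun ω => Pf ω * b ^ ms * (PT w D Z r ω / B ^ ms)) =
      b ^ ms / B ^ ms * Ex Q D η (fun ω => Pf ω * PT w D Z r ω) := by
    have := hscale fun _ => 1
    simpa only [mul_one] using this
  have hbB : 0 ≤ b ^ ms / B ^ ms := by positivity
  have hmain := low_abs (D := D) (η := η) hQ0 (X := XW D w) (Pf := fun ω => Pf ω * b ^ ms)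
    (J := fun ω => PT w D Z r ω / B ^ ms) (H := H) (Nb := Nb) (Np := fun ω => ∑ i ∈ P, Nf i ω)
    (Cb := Cb) (Cp := 3 ^ ms * Y) (c2 := c₂) hc0 hc1 hs hm1 hXW
    (fun ω => mul_nonneg (hPf0 ω) (pow_nonneg hb.le _))
    (fun ω => ⟨div_nonneg (hJ0 ω).1 hBms.le, (div_le_one hBms).2 (hJ0 ω).2⟩) hH hlow
    (by rw [hscale, hscale1, mul_left_comm]; exact mul_le_mul_of_nonneg_left hbig hbB)
    (by rw [hscale, hscale1, mul_left_comm]; exact mul_le_mul_of_nonneg_left hp hbB)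
    (by
      rw [hscale, hscale1, mul_left_comm]
      refine mul_le_mul_of_nonneg_left (hH2 Pf hPf0 ?_) hbB
      intro ω ω' hω
      rw [hPfe, hPfe]
      refine prod_congr rfl fun j hj => hloc j ω ω' fun v hv => hω v ?_
      rw [mem_inter] at hv ⊢
      exact ⟨hv.2, mem_biUnion.2 ⟨j, hj, hv.1⟩⟩) hm2
  rw [hscale1] at hmain
  refine le_trans ?_ hmain
  -- the product
  have hprod := (N.H975.ex_prod hQ (by norm_num) (by norm_num) hS.good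
    (fun j : ℤ × ℤ => j) (fun j => TX w D j r) (P ∪ Z) hMx hT0
    (fun i _ => hloc i) hdj).1
  have heT0 : ∀ j ∈ P ∪ Z, 0 ≤ Ex Q D η (TX w D j r) := fun j hj =>
    Ex_nonneg hQ0 fun S _ => hT0 j hj _
  have heT : ∀ j ∈ P ∪ Z, 0 ≤ Ex Q D η (TX w D j r1) ∧
      Ex Q D η (TX w D j r1) ≤ max (B / b) Y * Ex Q D η (TX w D j r) := by
    intro j hj
    rcases mem_union.1 hj with h | h
    · refine ⟨Ex_nonneg hQ0 fun S _ => hT0P j h r1 hr1B _, ?_⟩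
      have h3 := eT_P hQ0 hS hc0 hs hs0 hj hrr1 hr1B le_rfl
        (fun i hi => by
          rw [mem_singleton] at hi
          rw [hi]
          exact hwl j h) (N1 j h) (N3 {j} (singleton_subset_iff.2 h))
      exact h3.trans (mul_le_mul_of_nonneg_right (le_max_right _ _) (heT0 j hj))
    · refine ⟨Ex_nonneg hQ0 fun S _ => (hT0Z j h r1 hr1B (by omega) _).1, ?_⟩
      obtain ⟨I, hI⟩ := hZ j h
      have h3 : Ex Q D η (TX w D j r1) ≤ B / b * Ex Q D η (TX w D j r) := by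
        rw [← Ex_mul_left]
        exact Ex_mono hQ0 fun S _ => hI.two hb hB0.le (by omega) hrr1 hr1B _
      exact h3.trans (mul_le_mul_of_nonneg_right (le_max_left _ _) (heT0 j hj))
  have hp1 : ∏ j ∈ P ∪ Z, Ex Q D η (TX w D j r1) ≤
      max (B / b) Y ^ ms * ∏ j ∈ P ∪ Z, Ex Q D η (TX w D j r) := by
    calc ∏ j ∈ P ∪ Z, Ex Q D η (TX w D j r1)
        ≤ ∏ j ∈ P ∪ Z, (max (B / b) Y * Ex Q D η (TX w D j r)) :=
          prod_le_prod (fun j hj => (heT j hj).1) fun j hj => (heT j hj).2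
      _ = max (B / b) Y ^ (P ∪ Z).card * ∏ j ∈ P ∪ Z, Ex Q D η (TX w D j r) := by
          rw [prod_mul_distrib, prod_const]
      _ ≤ _ := mul_le_mul_of_nonneg_right (pow_le_pow_right₀ hY1 hcard)
          (prod_nonneg heT0)
  have hp2 : (1 / 2 : ℝ) ^ ms * ∏ j ∈ P ∪ Z, Ex Q D η (TX w D j r) ≤
      Ex Q D η (fun ω => Pf ω * PT w D Z r ω) := by
    have h3 : (1 / 2 : ℝ) ^ ms ≤ (1 - 1 / 2) ^ (P ∪ Z).card := by
      rw [show (1 - 1 / 2 : ℝ) = 1 / 2 by norm_num]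
      exact pow_le_pow_of_le_one (by norm_num) (by norm_num) hcard
    refine (mul_le_mul_of_nonneg_right h3 (prod_nonneg heT0)).trans (hprod.trans (le_of_eq ?_))
    exact Ex_congr fun S _ => (hGe _).symm
  have hA : 0 ≤ c0 ^ m * (c₂ / 2) := by positivity
  have hYp : 0 < max (B / b) Y ^ ms := by positivity
  calc c0 ^ m * (c₂ / 2) * ((b / B) ^ ms * ((1 / 2) ^ ms / max (B / b) Y ^ ms)) *
        ∏ j ∈ P ∪ Z, Ex Q D η (TX w D j r1)
      ≤ c0 ^ m * (c₂ / 2) * ((b / B) ^ ms * ((1 / 2) ^ ms / max (B / b) Y ^ ms)) *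
          (max (B / b) Y ^ ms * ∏ j ∈ P ∪ Z, Ex Q D η (TX w D j r)) :=
        mul_le_mul_of_nonneg_left hp1 (by positivity)
    _ = c0 ^ m * (c₂ / 2) * (b ^ ms / B ^ ms *
          ((1 / 2) ^ ms * ∏ j ∈ P ∪ Z, Ex Q D η (TX w D j r))) := by
        rw [div_pow b B]
        field_simp
    _ ≤ _ := mul_le_mul_of_nonneg_left (mul_le_mul_of_nonneg_left hp2 hbB) hA

end Vale.Agent.P167.N.AW
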