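import Vale.Agent.P167.N.AW.Core
import Vale.Agent.P167.N.H945.L.Abs
import Vale.Agent.P167.H945.L.Gen

/-!
# P167, `0 < q < 1`: local factors of an abstract weight, the product of all the weights

`XW_le`, `XW_low`: the product of all the weights and the product of the local factors. `exists_mom`:
moments of the numbers of the pieces between two scales.
-/

set_option autoImplicit false

namespace Vale.Agent.P167.N.AW

open Finset
open Vale.Agent.P167 Vale.Agent.P167.BR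
open Vale.Agent.P167.FK (Bq Ex Good RSW cf)
open Vale.Agent.P167.FKA (Loc Ind Ex_mono Ex_congr Ex_const Ex_mul_left Ex_nonneg)
open Vale.Agent.P167.H562.QM (MajA OneC)
open Vale.Agent.P167.H975 (TX TX_loc)
open Vale.Agent.P167.H365.NQ (XW)
open Vale.Agent.P167.H601.LG (nm_of_Bq nm_tri' nm_comm)
open Vale.Agent.P167.H601.S2 (Rg Off off_of_loc TX_nonneg Bq_sub prod_cmp prod_cmp_low mom_prod)

variable {A0 c0 C1 C2 Q s x y : ℝ} {ℓ m₀ r r' R r1 r2 K Λ : ℤ} {D C P Z : Finset (ℤ × ℤ)}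
  {w : Finset Ed → ℝ} {η ω : Cfg} {E M ms : ℕ} {I : ℤ → Cfg → ℝ}

open Classical in
/-- The product over the pieces in one of the boxes. -/
theorem prod_box (w : Finset Ed → ℝ) (P : Finset (ℤ × ℤ)) {r : ℤ × ℤ → ℤ}
    (hd : ∀ i ∈ P, ∀ j ∈ P, i ≠ j → Disjoint (Bq i (r i)) (Bq j (r j))) :
    ∏ A ∈ (pcs ω D).filter (fun A => ∃ j ∈ P, ∀ e ∈ A, hdv e ∈ Bq j (r j)), w A =
      ∏ j ∈ P, TX w D j (r j) ω := by
  have h1 : (pcs ω D).filter (fun A => ∃ j ∈ P, ∀ e ∈ A, hdv e ∈ Bq j (r j)) =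
      P.biUnion fun j => (pcs ω D).filter fun A => ∀ e ∈ A, hdv e ∈ Bq j (r j) := by
    ext A
    simp only [mem_filter, mem_biUnion]
    tauto
  rw [h1, prod_biUnion]
  · exact prod_congr rfl fun j _ => rfl
  · intro i hi j hj hij
    show Disjoint _ _
    rw [disjoint_left]
    intro A hA hA'
    rw [mem_filter] at hA hA'
    obtain ⟨e, he⟩ := pcs_nonempty hA.1
    exact disjoint_left.1 (hd i hi j hj hij) (hA.2 e he) (hA'.2 e he)

theorem box_disj (hS : Sw A0 ℓ m₀ D C w η) {c c' : ℤ × ℤ} (hc : c ∈ C) (hc' : c' ∈ C)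
    (hne : c ≠ c') (h1 : r ≤ ℓ) (h2 : r' ≤ ℓ) : Disjoint (Bq c r) (Bq c' r') := by
  rw [disjoint_left]
  intro v hv hv'
  have h3 := hS.far c hc c' hc' hne
  have h4 := nm_of_Bq hv
  have h5 := nm_of_Bq hv'
  have h6 := nm_tri' c v c'
  have h7 := nm_comm c v
  have h8 : 0 ≤ nm (v - c) := H825.Reg.nm_nn _
  omega

open Classical in
/-- The number of the large pieces. -/
theorem card_large (hS : Sw A0 ℓ m₀ D C w η) (hR : R ≤ ℓ) (hM : MajA D ((R : ℝ) / 16) ω M) :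
    ((pcs ω D).filter fun A => (∀ c ∈ C, ¬ ∀ e ∈ A, hdv e ∈ Bq c R) ∧ w A ≠ 1).card ≤ M := by
  refine card_zone hS hR le_rfl hM (filter_subset _ _) fun A hA => ?_
  rw [mem_filter] at hA
  exact ⟨hA.2.2, hA.2.1⟩

/-- **The product of all the weights, from above.** -/
theorem XW_le (hS : Sw A0 ℓ m₀ D C w η) (hr : r ≤ ℓ) {t : ℝ} (ht : t ≤ r / 16)
    (hM : MajA D t ω M) : |XW D w ω| ≤ A0 ^ M * |∏ c ∈ C, TX w D c r ω| := by
  classical
  rw [← prod_box (ω := ω) (D := D) w C (r := fun _ => r)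
    fun i hi j hj hij => box_disj hS hi hj hij hr hr]
  obtain ⟨B, hB⟩ : ∃ B : Finset (Finset Ed), B = (pcs ω D).filter
      (fun A => ∃ j ∈ C, ∀ e ∈ A, hdv e ∈ Bq j r) := ⟨_, rfl⟩
  have hsub : B ⊆ pcs ω D := by rw [hB]; exact filter_subset _ _
  have hXW : XW D w ω = (∏ A ∈ pcs ω D \ B, w A) * ∏ A ∈ B, w A := by
    unfold XW
    rw [prod_sdiff hsub]
  rw [← hB, hXW, abs_mul]
  refine mul_le_mul_of_nonneg_right ?_ (abs_nonneg _)
  rw [abs_prod]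
  obtain ⟨S, hSd⟩ : ∃ S, S = pcs ω D \ B := ⟨_, rfl⟩
  rw [← hSd, ← prod_filter_mul_prod_filter_not S (fun A => w A ≠ 1)]
  have h3 : ∏ A ∈ S.filter (fun A => ¬ w A ≠ 1), |w A| = 1 := by
    refine prod_eq_one fun A hA => ?_
    rw [mem_filter] at hA
    rw [not_not.1 hA.2, abs_one]
  rw [h3, mul_one]
  have hcard : (S.filter fun A => w A ≠ 1).card ≤ M := by
    refine card_zone hS hr ht hM (fun A hA => ?_) fun A hA => ?_
    · rw [mem_filter, hSd, mem_sdiff] at hA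
      exact hA.1.1
    · rw [mem_filter, hSd, mem_sdiff] at hA
      refine ⟨hA.2, fun c hc hin => hA.1.2 ?_⟩
      rw [hB, mem_filter]
      exact ⟨hA.1.1, c, hc, hin⟩
  calc ∏ A ∈ S.filter (fun A => w A ≠ 1), |w A|
      ≤ ∏ _A ∈ S.filter (fun A => w A ≠ 1), A0 := by
        refine prod_le_prod (fun A _ => abs_nonneg _) fun A hA => ?_
        rw [mem_filter, hSd, mem_sdiff] at hA
        exact hS.up ω A hA.1.1
    _ = A0 ^ (S.filter fun A => w A ≠ 1).card := prod_const _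
    _ ≤ _ := pow_le_pow_right₀ hS.one_le hcard

/-- **The product of all the weights, from below.** -/
theorem XW_low (hS : Sw A0 ℓ m₀ D C w η) (hPZ : P ∪ Z = C) (hdis : Disjoint P Z)
    (hrR : r ≤ R) (hR : R ≤ ℓ) (hc0 : 0 < c0) (hc1 : c0 ≤ 1) (hw : ∀ A ∈ pcs ω D, c0 ≤ w A)
    {b : ℝ} (hb0 : 0 ≤ b) (hZ : ∀ c ∈ Z, b ≤ TX w D c R ω) (hM : MajA D ((R : ℝ) / 16) ω M)
    {Nf : ℤ × ℤ → ℕ} (hN : ∀ c ∈ P, MajA (Bq c R) ((r : ℝ) / 16) ω (Nf c)) :
    c0 ^ (M + ∑ c ∈ P, Nf c) * ((∏ c ∈ P, TX w D c r ω) * b ^ Z.card) ≤ XW D w ω := by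
  classical
  obtain ⟨ρ, hρ⟩ : ∃ ρ : ℤ × ℤ → ℤ, ρ = fun j => if j ∈ P then r else R := ⟨_, rfl⟩
  have hρR : ∀ j, ρ j ≤ R := by
    intro j
    rw [hρ]
    simp only
    split_ifs
    · exact hrR
    · exact le_rfl
  have hρP : ∀ j ∈ P, ρ j = r := fun j hj => by
    rw [hρ]
    exact if_pos hj
  have hρZ : ∀ j ∈ Z, ρ j = R := fun j hj => by
    rw [hρ]
    exact if_neg (disjoint_right.1 hdis hj)
  have hdis' : ∀ i ∈ P ∪ Z, ∀ j ∈ P ∪ Z, i ≠ j → Disjoint (Bq i (ρ i)) (Bq j (ρ j)) := by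
    intro i hi j hj hij
    rw [hPZ] at hi hj
    exact box_disj hS hi hj hij ((hρR i).trans hR) ((hρR j).trans hR)
  have hbox := prod_box (ω := ω) (D := D) w (P ∪ Z) hdis'
  rw [prod_union hdis, prod_congr rfl (fun j hj => by rw [hρP j hj] :
      ∀ j ∈ P, TX w D j (ρ j) ω = TX w D j r ω)] at hbox
  have hPr : 0 ≤ ∏ c ∈ P, TX w D c r ω := prod_nonneg fun c _ =>
    TX_nonneg fun A hA _ => hc0.le.trans (hw A hA)
  have hZb : b ^ Z.card ≤ ∏ j ∈ Z, TX w D j (ρ j) ω := by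
    rw [← prod_const]
    refine prod_le_prod (fun _ _ => hb0) fun j hj => ?_
    rw [hρZ j hj]
    exact hZ j hj
  refine (mul_le_mul_of_nonneg_left (mul_le_mul_of_nonneg_left hZb hPr)
    (pow_nonneg hc0.le _)).trans ?_
  rw [← hbox]
  have key := prod_cmp_low (S := pcs ω D) (w := w) (P := fun _ => True)
    (P' := fun A => ∃ j ∈ P ∪ Z, ∀ e ∈ A, hdv e ∈ Bq j (ρ j))
    (fun _ _ _ => trivial)
    hc0 hc1 (fun A hA _ => hc0.le.trans (hw A hA)) (fun A hA _ _ => hw A hA)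
    (M := M + ∑ j ∈ P, Nf j) ?_
  · rw [filter_true_of_mem (fun _ _ => trivial)] at key
    exact key
  · have hPC : P ⊆ C := hPZ ▸ subset_union_left
    have hb := card_large hS hR hM
    have hbt := fun j (hj : j ∈ P) => card_between hS (hPC hj) hrR hR (hN j hj)
    have hsub : ((pcs ω D).filter fun A => (True ∧ ¬ ∃ j ∈ P ∪ Z, ∀ e ∈ A,
        hdv e ∈ Bq j (ρ j)) ∧ w A ≠ 1) ⊆
        ((pcs ω D).filter fun A => (∀ c ∈ C, ¬ ∀ e ∈ A, hdv e ∈ Bq c R) ∧ w A ≠ 1) ∪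
        P.biUnion fun j => (pcs ω D).filter fun A => ((∀ e ∈ A, hdv e ∈ Bq j R) ∧
          ¬ ∀ e ∈ A, hdv e ∈ Bq j r) ∧ w A ≠ 1 := by
      intro A hA
      rw [mem_filter] at hA
      obtain ⟨hA1, ⟨-, hA2⟩, hA3⟩ := hA
      rw [mem_union]
      by_cases hout : ∀ c ∈ C, ¬ ∀ e ∈ A, hdv e ∈ Bq c R
      · exact Or.inl (mem_filter.2 ⟨hA1, hout, hA3⟩)
      · push Not at hout
        obtain ⟨j, hj, hin⟩ := hout
        rw [← hPZ] at hj
        rcases mem_union.1 hj with hjP | hjZ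
        · refine Or.inr (mem_biUnion.2 ⟨j, hjP, mem_filter.2 ⟨hA1, ⟨hin, fun h => ?_⟩, hA3⟩⟩)
          exact hA2 ⟨j, mem_union_left _ hjP, by rw [hρP j hjP]; exact h⟩
        · exact absurd ⟨j, mem_union_right _ hjZ, by rw [hρZ j hjZ]; exact hin⟩ hA2
    refine (card_le_card ?_).trans ((card_union_le _ _).trans (Nat.add_le_add hb
      (card_biUnion_le.trans (sum_le_sum fun j hj => hbt j hj))))
    convert hsub

/-- **The moments of the numbers of the pieces between the radii `r` and `B` at the points of `P`**,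
with respect to the product of the local factors of radius `r`. -/
theorem exists_mom (hQ : Kit Q) (hR : RSW Q) (ms : ℕ) (hc0 : 0 < c0) (hc1 : c0 ≤ 1) (hs : 0 < s)
    (hs0 : A0 ≤ Real.exp (s / 2)) (hs1 : Real.exp (-(s / 4)) ≤ c0) {Λ : ℝ} (hΛ : 0 ≤ Λ) :
    ∃ K Y : ℝ, 0 < Y ∧ ∀ {ℓ m₀ : ℤ} {D C : Finset (ℤ × ℤ)} {w : Finset Ed → ℝ} {η : Cfg},
      Sw A0 ℓ m₀ D C w η → ∀ P : Finset (ℤ × ℤ), P ⊆ C → P.card ≤ ms → ∀ r B : ℤ, K ≤ r → 1 ≤ r →
      r ≤ B → (B : ℝ) ≤ Λ * r → B ≤ ℓ → 4 * B ≤ m₀ → Wl w D P c0 B →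
      ∃ Nf : ℤ × ℤ → Cfg → ℕ, (∀ c ∈ P, ∀ ω : Cfg, MajA (Bq c B) ((r : ℝ) / 16) ω (Nf c ω)) ∧
        (∀ c ∈ P, ∀ ω ω' : Cfg, (∀ v, nm (v - c) ≤ 2 * B → ω v = ω' v) →
          Nf c ω = Nf c ω') ∧
        ∀ P' ⊆ P, Ex Q D η (fun ω => PT w D P' r ω *
          Real.exp (s * ((∑ i ∈ P', Nf i ω : ℕ) : ℝ))) ≤ Y * Ex Q D η (PT w D P' r) := by
  have hQ0 : 0 < Q := hQ.pos
  obtain ⟨e1, he1, H⟩ := N.H601.S2.num_pt hQ hR
  obtain ⟨E0, hE0⟩ := exists_nat_ge (16 * (1 + |2 * s|) / e1)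
  obtain ⟨E, hE, hE2, H2⟩ := mom_main hQ hR ms hc0 hc1 hs hs0 hs1 E0
  obtain ⟨K, hK0, hK1, H2⟩ := H2 0
  obtain ⟨C, ρ0, hC, hρ0, H⟩ := H (1 / 16) Λ (2 * s) (by norm_num) hΛ
  obtain ⟨Y, hY1, H2⟩ := H2 1 (max 1 C ^ ms) le_rfl (by positivity)
  refine ⟨max ρ0 (E * K), Y ^ 4, by positivity, ?_⟩
  intro ℓ m₀ D CC w η hS P hP hPc r B hKr hr1 hrB hBΛ hBℓ hBm hw
  have hρr : ρ0 ≤ r := (le_max_left _ _).trans hKr
  have hEr : (E : ℤ) * K ≤ r := by
    have : ((E * K : ℤ) : ℝ) ≤ r := by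
      push_cast
      exact (le_max_right _ _).trans hKr
    exact_mod_cast this
  have hr1' : (1 : ℝ) ≤ r := by exact_mod_cast hr1
  have hrZ' : (r : ℝ) ≤ B := by exact_mod_cast hrB
  have hZ1 : 1 ≤ B := hr1.trans hrB
  have hZ1' : (1 : ℝ) ≤ B := by exact_mod_cast hZ1
  set ea : ℝ := e1 * (1 / 16) / (1 + |2 * s|) * r with hea
  set eb : ℝ := 1 / 16 * (r : ℝ) + B with heb
  have hebZ : eb ≤ 2 * B := by rw [heb]; linarith
  have num : ∀ c : ℤ × ℤ, ∃ Nf : Cfg → ℕ, c ∈ P →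
      (∀ ω ω' : Cfg, (∀ v, Rg c ea eb v → ω v = ω' v) → Nf ω = Nf ω') ∧
      (∀ ω, MajA (Bq c B) ((r : ℝ) / 16) ω (Nf ω)) ∧
      ∀ G : Cfg → ℝ, (∀ ω, 0 ≤ G ω) → Off D (Rg c ea eb) G →
        Ex Q D η (fun ω => G ω * Real.exp (2 * s * (Nf ω : ℝ))) ≤ C * Ex Q D η G := by
    intro c
    by_cases hc : c ∈ P
    swap
    · exact ⟨fun _ => 0, fun h => absurd h hc⟩
    obtain ⟨Nf, n1, n2, n3⟩ := H r hρr c B hBΛ
    refine ⟨Nf, fun _ => ⟨n1, fun ω => ?_, fun G hG0 hG => ?_⟩⟩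
    · have := n2 ω
      rwa [one_div, inv_mul_eq_div] at this
    · refine n3 D η hS.good (fun y a ha ha' hy => ?_) G hG0 hG
      have h6 : (a : ℝ) ≤ r := by linarith
      have h7 : (nm (y - c) : ℝ) ≤ 2 * B := hy.trans hebZ
      have h6' : a ≤ r := by exact_mod_cast h6
      have h7' : nm (y - c) ≤ 2 * B := by exact_mod_cast h7
      refine hS.one y a ha (by omega) ?_
      obtain ⟨v, hv, hv'⟩ := hS.near c (hP hc)
      refine ⟨v, hv, ?_⟩
      have h8 := nm_tri' y c v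
      omega
  choose Nf hNf using num
  refine ⟨Nf, fun c hc => (hNf c hc).2.1, fun c hc ω ω' hω => (hNf c hc).1 ω ω' fun v hv =>
    hω v ?_, fun P' hP' => ?_⟩
  · have h3 : (nm (v - c) : ℝ) ≤ 2 * B := hv.2.trans hebZ
    exact_mod_cast h3
  have hfar : ∀ i ∈ P', ∀ j ∈ P', i ≠ j → 4 * B < nm (i - j) :=
    fun i hi j hj hne => by
      have := hS.far i (hP (hP' hi)) j (hP (hP' hj)) hne
      omega
  have hwP : Wl w D P' c0 B := hw.sub hP'
  have hE0' : 0 ≤ r := by omega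
  have hrE : r / E ≤ B := (Int.ediv_le_self _ hE0').trans hrB
  have hrE' : ((r / E : ℤ) : ℝ) ≤ ea := by
    have hEpos : (0 : ℝ) < E := by
      have : 0 < E := by omega
      exact_mod_cast this
    have h3 : ((E : ℤ) : ℝ) * ((r / E : ℤ) : ℝ) ≤ (r : ℝ) := by
      exact_mod_cast Int.mul_ediv_self_le (x := r) (k := (E : ℤ)) (by omega)
    rw [Int.cast_natCast] at h3
    have h4 : 16 * (1 + |2 * s|) / e1 ≤ E := hE0.trans (by exact_mod_cast hE)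
    have hs2 : 0 < 1 + |2 * s| := by positivity
    rw [div_le_iff₀ he1] at h4
    have h5 : (r : ℝ) ≤ E * ea := by
      rw [hea]
      have h6 : (E : ℝ) * (e1 * (1 / 16) / (1 + |2 * s|) * r) =
          (E * e1) / (16 * (1 + |2 * s|)) * r := by
        field_simp
      rw [h6]
      have h7 : 1 ≤ (E * e1) / (16 * (1 + |2 * s|)) := by
        rw [le_div_iff₀ (by positivity), one_mul]
        exact h4
      nlinarith
    exact le_of_mul_le_mul_left (h3.trans h5) hEpos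
  have hT0 : ∀ ω, 0 ≤ PT w D P' (r / E) ω := fun ω => (hwP.mono hrE).pnonneg hc0.le ω
  have hmom := mom_prod (Q := Q) (D := D) (η := η) P' Nf
    (T := PT w D P' (r / E)) hT0 (R := fun i => Rg i ea eb) (C := C)
    (s := 2 * s) hC.le (fun a ha => PT_offR hfar ha hrE (by omega) hrE' hebZ)
    (fun a ha => (hNf a (hP' ha)).1)
    (fun a ha b hb hab v hv hv' => by
      have h6 := hfar a ha b hb hab
      have h7 := nm_tri' a v b
      have h8 := nm_comm a v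
      have h10 : (nm (v - a) : ℝ) ≤ 2 * B := hv.2.trans hebZ
      have h11 : nm (v - a) ≤ 2 * B := by exact_mod_cast h10
      have h12 : (nm (v - b) : ℝ) ≤ 2 * B := hv'.2.trans hebZ
      have h13 : nm (v - b) ≤ 2 * B := by exact_mod_cast h12
      omega)
    (fun a ha => (hNf a (hP' ha)).2.2)
  have hcard : P'.card ≤ ms := (card_le_card hP').trans hPc
  have hmom' : Ex Q D η (fun ω => PT w D P' (r / E) ω *
      Real.exp (2 * s * ((∑ i ∈ P', Nf i ω : ℕ) : ℝ))) ≤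
        max 1 C ^ ms * Ex Q D η (PT w D P' (r / E)) := by
    refine hmom.trans (mul_le_mul_of_nonneg_right ?_ (Ex_nonneg hQ0 fun _ _ => hT0 _))
    exact (pow_le_pow_left₀ hC.le (le_max_right _ _) _).trans
      (pow_le_pow_right₀ (le_max_left _ _) hcard)
  have key := (H2 hS P' (hP'.trans hP) hcard r hEr (hrB.trans hBℓ) (by omega)
    (hwP.mono hrB) (fun _ _ => 1) ∅ 1 (extI_one D η E K r le_rfl)
    (fun j hj z hz => absurd hz (notMem_empty z))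
    (fun ω => ((∑ i ∈ P', Nf i ω : ℕ) : ℝ)) (fun ω => Nat.cast_nonneg _)
    (by rw [TT_one]; exact hmom')).1
  rw [TT_one] at key
  exact key

/-- Larger radius, for the points with positive weights. -/
theorem eT_P (hQ : 0 < Q) (hS : Sw A0 ℓ m₀ D C w η) (hc0 : 0 < c0) (hs : 0 < s)
    (hs0 : A0 ≤ Real.exp (s / 2)) {c : ℤ × ℤ} (hc : c ∈ C) {B : ℤ} (hr1 : r ≤ r1)
    (h1B : r1 ≤ B) (hB : B ≤ ℓ) (hw : Wl w D {c} c0 B) {Nf : ℤ × ℤ → Cfg → ℕ}
    (hN : ∀ ω, MajA (Bq c B) ((r : ℝ) / 16) ω (Nf c ω)) {Y : ℝ}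
    (hY : Ex Q D η (fun ω => PT w D {c} r ω *
      Real.exp (s * ((∑ i ∈ {c}, Nf i ω : ℕ) : ℝ))) ≤ Y * Ex Q D η (PT w D {c} r)) :
    Ex Q D η (TX w D c r1) ≤ Y * Ex Q D η (TX w D c r) := by
  have e1 : ∀ r' : ℤ, Ex Q D η (PT w D {c} r') = Ex Q D η (TX w D c r') := by
    intro r'
    refine Ex_congr fun S _ => ?_
    unfold PT
    rw [prod_singleton]
  rw [← e1, ← e1]
  refine le_trans (Ex_mono hQ fun S _ => ?_) hY
  have h3 := PT_up hS hs0 hc0 (P := {c}) (singleton_subset_iff.2 hc) hr1 (h1B.trans hB)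
    (hw.mono h1B) (cf D η S) (Nf := fun i => Nf i (cf D η S)) (fun i hi => by
    rw [mem_singleton] at hi
    rw [hi]
    exact H945.L.MajA.zone (Bq_sub h1B) (hN _))
  refine h3.trans ?_
  rw [mul_comm]
  refine mul_le_mul_of_nonneg_left (Real.exp_le_exp.2 ?_)
    ((hw.mono (hr1.trans h1B)).pnonneg hc0.le _)
  refine mul_le_mul_of_nonneg_right (by linarith) (Nat.cast_nonneg _)

end Vale.Agent.P167.N.AW
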