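import Vale.Agent.P167.N.AW.Cmp
import Vale.Agent.P167.N.H601.S2.Cst

/-!
# P167, `0 < q < 1`: local factors of an abstract weight, moments and radii

`mom_main`: the exponential moments with respect to the product of the local factors and of the extra
factor, and the comparison of two radii.
-/

set_option autoImplicit false

namespace Vale.Agent.P167.N.AW

open Finset
open Vale.Agent.P167 Vale.Agent.P167.BR
open Vale.Agent.P167.FK (Bq Ex Good RSW cf)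
open Vale.Agent.P167.FKA (Loc Ex_mono Ex_congr Ex_const Ex_mul_left Ex_nonneg)
open Vale.Agent.P167.H562.QM (MajA OneC)
open Vale.Agent.P167.H975 (TX TX_loc)
open Vale.Agent.P167.H601.LG (nm_of_Bq nm_tri' nm_comm)
open Vale.Agent.P167.H601.S2 (Rg Off off_of_loc TX_nonneg Bq_sub prod_cmp prod_cmp_low mom_prod
  rr rr_zero rr_succ rr_nonneg rr_le rr_anti rr_up rr_down exists_last maj_last Cn exists_Y radii)

variable {A0 c0 C1 C2 Q s x y ε ρ0 Cc : ℝ} {ℓ m₀ r r' r1 r2 K Λ : ℤ} {D C P Z : Finset (ℤ × ℤ)}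
  {w : Finset Ed → ℝ} {η ω : Cfg} {E M ms : ℕ} {I : ℤ → Cfg → ℝ}

/-- The number of large segments at one scale, for one point. -/
theorem num_one (hC : Cn Q ε E s Cc ρ0) (hS : Sw A0 ℓ m₀ D C w η) {c : ℤ × ℤ} (hc : c ∈ C)
    {ρ Zr : ℤ} (hρ0 : ρ0 ≤ ρ) (hρ1 : 1 ≤ ρ) (hρr : ρ ≤ r) (hZr : Zr ≤ r) (hZρ : Zr ≤ 2 * E * ρ)
    (hrm : 4 * r ≤ m₀) : ∃ Nf : Cfg → ℕ,
      (∀ ω, MajA (Bq c Zr) ((ρ : ℝ) / 16) ω (Nf ω)) ∧
      (∀ ω ω' : Cfg, (∀ v, Rg c (ε * ρ) (1 / 16 * ρ + Zr) v → ω v = ω' v) → Nf ω = Nf ω') ∧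
      ∀ G : Cfg → ℝ, (∀ ω, 0 ≤ G ω) → Off D (Rg c (ε * ρ) (1 / 16 * ρ + Zr)) G →
        Ex Q D η (fun ω => G ω * Real.exp (s * (Nf ω : ℝ))) ≤ Cc * Ex Q D η G := by
  have hZρ' : (Zr : ℝ) ≤ 2 * E * (ρ : ℝ) := by exact_mod_cast hZρ
  obtain ⟨Nf, n1, n2, n3⟩ := hC (ρ : ℝ) hρ0 c Zr hZρ'
  refine ⟨Nf, n2, n1, fun G hG0 hG => ?_⟩
  refine n3 D η hS.good (fun y a ha ha' hy => ?_) G hG0 hG
  have h3 : (ρ : ℝ) ≤ r := by exact_mod_cast hρr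
  have h4 : (Zr : ℝ) ≤ r := by exact_mod_cast hZr
  have h5 : (1 : ℝ) ≤ ρ := by exact_mod_cast hρ1
  have h6 : (a : ℝ) ≤ r := by linarith
  have h7 : (nm (y - c) : ℝ) ≤ 2 * r := by linarith
  have h6' : a ≤ r := by exact_mod_cast h6
  have h7' : nm (y - c) ≤ 2 * r := by exact_mod_cast h7
  refine hS.one y a ha (by omega) ?_
  obtain ⟨v, hv, hv'⟩ := hS.near c hc
  refine ⟨v, hv, ?_⟩
  have h8 := nm_tri' y c v
  omega

/-- The data of the scales `1, …, J - 1`. -/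
def Mid (Q ε Cc s : ℝ) (D : Finset (ℤ × ℤ)) (η : Cfg) (c : ℤ × ℤ) (ρ Zr : ℤ) (Nf : Cfg → ℕ) :
    Prop :=
  (∀ ω ω' : Cfg, (∀ v, Rg c (ε * ρ) (1 / 16 * ρ + Zr) v → ω v = ω' v) → Nf ω = Nf ω') ∧
  ∀ G : Cfg → ℝ, (∀ ω, 0 ≤ G ω) → Off D (Rg c (ε * ρ) (1 / 16 * ρ + Zr)) G →
    Ex Q D η (fun ω => G ω * Real.exp (s * (Nf ω : ℝ))) ≤ Cc * Ex Q D η G

/-- The numbers at all the scales. -/
theorem nums (hC : Cn Q ε E s Cc ρ0) (hE : 1 ≤ E) (hS : Sw A0 ℓ m₀ D C w η) (hr : 0 ≤ r)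
    (hrm : 4 * r ≤ m₀) {J : ℕ} (hK1 : 1 ≤ K) (hKρ : ρ0 ≤ K) (hJK : K ≤ rr r E J)
    (hJE : rr r E J < E * K) {Z0 : ℕ} (hZ0 : Z0 = 4 * (2 * (2 * E * (E * K) : ℤ).toNat) ^ 2) :
    ∃ Nf : ℤ × ℤ → ℕ → Cfg → ℕ,
      (∀ (c : ℤ × ℤ) (j : ℕ), c ∈ C → j < J → ∀ ω, MajA (Bq c (rr r E j))
        ((rr r E (j + 1) : ℝ) / 16) ω (Nf c (j + 1) ω)) ∧
      (∀ (c : ℤ × ℤ) (j : ℕ), c ∈ C → j + 1 < J →
        Mid Q ε Cc s D η c (rr r E (j + 1)) (rr r E j) (Nf c (j + 1))) ∧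
      ∀ c ω, Nf c J ω ≤ Z0 := by
  have hρr : ∀ j, rr r E j ≤ r := fun j => by
    have := rr_anti hr E (Nat.zero_le j)
    rwa [rr_zero] at this
  have hρ1 : ∀ j ≤ J, 1 ≤ rr r E j := fun j hj => (hK1.trans hJK).trans (rr_anti hr E hj)
  have key : ∀ (c : ℤ × ℤ) (j : ℕ), ∃ Nf : Cfg → ℕ,
      (c ∈ C → j < J → ∀ ω, MajA (Bq c (rr r E j)) ((rr r E (j + 1) : ℝ) / 16) ω (Nf ω)) ∧
      (c ∈ C → j + 1 < J → Mid Q ε Cc s D η c (rr r E (j + 1)) (rr r E j) Nf) ∧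
      (J ≤ j + 1 → ∀ ω, Nf ω ≤ Z0) := by
    intro c j
    by_cases hc : c ∈ C
    swap
    · exact ⟨fun _ => 0, fun h => absurd h hc, fun h => absurd h hc, fun _ _ => Nat.zero_le _⟩
    rcases lt_trichotomy (j + 1) J with h | h | h
    · obtain ⟨Nf, n1, n2, n3⟩ := num_one hC hS hc (r := r) (ρ := rr r E (j + 1))
        (Zr := rr r E j) (by
          have h3 : K ≤ rr r E (j + 1) := hJK.trans (rr_anti hr E h.le)
          exact hKρ.trans (by exact_mod_cast h3)) (hρ1 _ h.le) (hρr _) (hρr _)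
        (rr_up hE (hρ1 _ h.le)) hrm
      exact ⟨Nf, fun _ _ => n1, fun _ _ => ⟨n2, n3⟩, fun h' => by omega⟩
    · refine ⟨fun _ => Z0, fun _ _ ω => ?_, fun _ h' => by omega, fun _ _ => le_rfl⟩
      rw [hZ0]
      refine maj_last ?_ ω
      refine (rr_up hE (hρ1 (j + 1) h.le)).trans ?_
      rw [h]
      exact mul_le_mul_of_nonneg_left hJE.le (by positivity)
    · exact ⟨fun _ => 0, fun _ h' => by omega, fun _ h' => by omega, fun _ _ => Nat.zero_le _⟩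
  choose Nf hN1 hN2 hN3 using key
  rcases Nat.eq_zero_or_pos J with hJ | hJ
  · exact ⟨fun _ _ _ => 0, fun i j _ h => by omega, fun i j _ h => by omega,
      fun _ _ => Nat.zero_le _⟩
  refine ⟨fun i j => Nf i (j - 1), fun i j hi h => ?_, fun i j hi h => ?_, fun i => ?_⟩
  · simpa using hN1 i j hi h
  · simpa using hN2 i j hi h
  · exact hN3 i (J - 1) (by omega)

/-- The moments at the scales `1, …, J - 1`. -/
theorem mom_mid {j : ℕ} (hQ : 0 < Q) (hε : 0 < ε) (hE : 1 ≤ E) (hεE : 1 ≤ ε * E)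
    (hC : 0 < Cc) (hI : ExtI Q D η I Z Λ E K C1 r)
    (hf : ∀ c ∈ P, ∀ c' ∈ P, c ≠ c' → 4 * r < nm (c - c'))
    (hfI : ∀ c ∈ P, ∀ z ∈ Z, (Λ + 4) * r < nm (c - z)) (hPc : P.card ≤ ms)
    (hT0 : ∀ ω, 0 ≤ TT w D I P (rr r E (j + 2)) ω) {Nf : ℤ × ℤ → Cfg → ℕ}
    (hr0 : 0 ≤ r) (h1 : 1 ≤ rr r E (j + 2))
    (hN : ∀ c ∈ P, Mid Q ε Cc s D η c (rr r E (j + 1)) (rr r E j) (Nf c)) :
    Ex Q D η (fun ω => TT w D I P (rr r E (j + 2)) ω *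
      Real.exp (s * ((∑ c ∈ P, Nf c ω : ℕ) : ℝ))) ≤
        max 1 Cc ^ ms * Ex Q D η (TT w D I P (rr r E (j + 2))) := by
  have hρr : ∀ j, rr r E j ≤ r := fun j => by
    have := rr_anti hr0 E (Nat.zero_le j)
    rwa [rr_zero] at this
  have hdn := rr_down (r := r) hE (j + 1)
  have hdn' : (rr r E (j + 2) : ℝ) ≤ ε * rr r E (j + 1) := by
    have h3 : ((E : ℤ) : ℝ) * (rr r E (j + 2) : ℝ) ≤ (rr r E (j + 1) : ℝ) := by
      exact_mod_cast hdn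
    have h4 : (0 : ℝ) ≤ rr r E (j + 2) := by exact_mod_cast rr_nonneg hr0 E _
    push_cast at h3
    calc (rr r E (j + 2) : ℝ) = 1 * (rr r E (j + 2) : ℝ) := (one_mul _).symm
      _ ≤ (ε * E) * (rr r E (j + 2) : ℝ) := mul_le_mul_of_nonneg_right hεE h4
      _ = ε * (E * (rr r E (j + 2) : ℝ)) := by ring
      _ ≤ ε * rr r E (j + 1) := mul_le_mul_of_nonneg_left h3 hε.le
  have hρi : (1 / 16 * (rr r E (j + 1) : ℝ) + (rr r E j : ℝ)) ≤ 2 * r := by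
    have h3 : (rr r E (j + 1) : ℝ) ≤ r := by exact_mod_cast hρr (j + 1)
    have h4 : (rr r E j : ℝ) ≤ r := by exact_mod_cast hρr j
    have h5 : (0 : ℝ) ≤ r := by exact_mod_cast hr0
    linarith
  have h3 := mom_prod (Q := Q) (D := D) (η := η) P Nf
    (T := TT w D I P (rr r E (j + 2))) hT0
    (R := fun a => Rg a (ε * rr r E (j + 1))
      (1 / 16 * rr r E (j + 1) + rr r E j)) (C := Cc) (s := s) hC.le
    (fun a ha => TT_off hI hf hfI ha h1 (hρr _) hdn' hρi)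
    (fun a ha => (hN a ha).1)
    (fun a ha b hb hab v hv hv' => by
      have h6 := hf a ha b hb hab
      have h7 := nm_tri' a v b
      have h8 := nm_comm a v
      have h10 : (nm (v - a) : ℝ) ≤ 2 * r := hv.2.trans hρi
      have h11 : nm (v - a) ≤ 2 * r := by exact_mod_cast h10
      have h12 : (nm (v - b) : ℝ) ≤ 2 * r := hv'.2.trans hρi
      have h13 : nm (v - b) ≤ 2 * r := by exact_mod_cast h12
      omega)
    (fun a ha => (hN a ha).2)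
  refine h3.trans (mul_le_mul_of_nonneg_right ?_ (Ex_nonneg hQ fun _ _ => hT0 _))
  exact (pow_le_pow_left₀ hC.le (le_max_right _ _) _).trans
    (pow_le_pow_right₀ (le_max_left _ _) hPc)

/-- **Moments and radii.** -/
theorem mom_main (hQ : Kit Q) (hR : RSW Q) (ms : ℕ) (hc0 : 0 < c0) (hc1 : c0 ≤ 1) (hs : 0 < s)
    (hs0 : A0 ≤ Real.exp (s / 2)) (hs1 : Real.exp (-(s / 4)) ≤ c0) :
    ∀ E0 : ℕ, ∃ E : ℕ, E0 ≤ E ∧ 2 ≤ E ∧ ∀ K0 : ℤ, ∃ K : ℤ, K0 ≤ K ∧ 1 ≤ K ∧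
    ∀ C1 M : ℝ, 1 ≤ C1 → 0 ≤ M → ∃ Y : ℝ, 1 ≤ Y ∧
    ∀ {ℓ m₀ : ℤ} {D C : Finset (ℤ × ℤ)} {w : Finset Ed → ℝ} {η : Cfg}, Sw A0 ℓ m₀ D C w η →
      ∀ P : Finset (ℤ × ℤ), P ⊆ C → P.card ≤ ms → ∀ r : ℤ, E * K ≤ r → r ≤ ℓ → 4 * r ≤ m₀ →
      Wl w D P c0 r →
      ∀ (I : ℤ → Cfg → ℝ) (Z : Finset (ℤ × ℤ)) (Λ : ℤ), ExtI Q D η I Z Λ E K C1 r →
      (∀ c ∈ P, ∀ z ∈ Z, (Λ + 4) * r < nm (c - z)) →
      ∀ N0 : Cfg → ℝ, (∀ ω, 0 ≤ N0 ω) →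
      Ex Q D η (fun ω => TT w D I P (r / E) ω * Real.exp (2 * s * N0 ω)) ≤
        M * Ex Q D η (TT w D I P (r / E)) →
      Ex Q D η (fun ω => TT w D I P r ω * Real.exp (s * N0 ω)) ≤
        Y ^ 4 * Ex Q D η (TT w D I P r) ∧
      Ex Q D η (TT w D I P (r / E)) ≤ C1 * Y * Ex Q D η (TT w D I P r) ∧
      Ex Q D η (TT w D I P r) ≤ Y ^ 4 * Ex Q D η (TT w D I P (r / E)) := by
  have hQ0 : 0 < Q := hQ.pos
  intro E0
  obtain ⟨ε, E, C, ρ0, hε, hE0, hE2, hεE, hC, hρ0, hCn⟩ := N.H601.S2.exists_cn hQ hR (2 * s) E0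
  have hE1 : 1 ≤ E := by omega
  refine ⟨E, hE0, hE2, fun K0 => ?_⟩
  obtain ⟨K, hK⟩ : ∃ K : ℤ, K = max K0 (max 1 ⌈ρ0⌉) := ⟨_, rfl⟩
  have hK0 : K0 ≤ K := by rw [hK]; exact le_max_left _ _
  have hK1 : 1 ≤ K := by rw [hK]; exact (le_max_left _ _).trans (le_max_right _ _)
  have hKρ : ρ0 ≤ K := by
    have : (⌈ρ0⌉ : ℝ) ≤ K := by
      exact_mod_cast (by rw [hK]; exact (le_max_right _ _).trans (le_max_right _ _))
    exact (Int.le_ceil ρ0).trans this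
  obtain ⟨Z0, hZ0⟩ : ∃ Z0 : ℕ, Z0 = 4 * (2 * (2 * E * (E * K) : ℤ).toNat) ^ 2 := ⟨_, rfl⟩
  refine ⟨K, hK0, hK1, fun C1 M hC1 hM => ?_⟩
  have hM'0 : 0 ≤ M + max 1 C ^ ms := by positivity
  obtain ⟨Y, hY1, hYM, hYb⟩ := exists_Y hC1 hM'0
    (Real.one_le_exp (by positivity : 0 ≤ s * ((ms * Z0 : ℕ) : ℝ)))
  refine ⟨Y, hY1, ?_⟩
  intro ℓ m₀ D CC w η hS P hP hPc r hrK hrℓ hrm hw I Z Λ hI hfI N0 hN0 hM0
  have hr0 : 0 ≤ r := le_trans (by positivity) hrK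
  obtain ⟨J, hJ1, hJK, hJE⟩ := exists_last hE2 hK1 hrK
  have hρr : ∀ j, rr r E j ≤ r := fun j => by
    have := rr_anti hr0 E (Nat.zero_le j)
    rwa [rr_zero] at this
  have hρ1 : ∀ j ≤ J, 1 ≤ rr r E j := fun j hj => (hK1.trans hJK).trans (rr_anti hr0 E hj)
  have hρK : ∀ j ≤ J, K ≤ rr r E j := fun j hj => hJK.trans (rr_anti hr0 E hj)
  have hfar : ∀ i ∈ P, ∀ j ∈ P, i ≠ j → 4 * r < nm (i - j) :=
    fun i hi j hj hne => by
      have := hS.far i (hP hi) j (hP hj) hne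
      omega
  obtain ⟨Nf, hN1, hN2, hN3⟩ := nums hCn hE1 hS hr0 hrm hK1 hKρ hJK hJE hZ0
  -- the numbers
  obtain ⟨Nn, hNn⟩ : ∃ Nn : ℕ → Cfg → ℝ, Nn = fun j ω => if j = 0 then N0 ω else
      ((∑ i ∈ P, Nf i j ω : ℕ) : ℝ) := ⟨_, rfl⟩
  have hNn0 : ∀ ω, Nn 0 ω = N0 ω := fun ω => by rw [hNn]; exact if_pos rfl
  have hNns : ∀ j ω, Nn (j + 1) ω = ((∑ i ∈ P, Nf i (j + 1) ω : ℕ) : ℝ) := fun j ω => by
    rw [hNn]; exact if_neg (Nat.succ_ne_zero j)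
  have hT0 : ∀ j ≤ J, ∀ ω, 0 ≤ TT w D I P (rr r E j) ω := fun j hj ω =>
    mul_nonneg (hI.nn _ _ (hρ1 j hj) (hρr j)) ((hw.mono (hρr j)).pnonneg hc0.le ω)
  have hup : ∀ j < J, ∀ ω, TT w D I P (rr r E j) ω ≤
      Real.exp (s / 2 * Nn (j + 1) ω) * TT w D I P (rr r E (j + 1)) ω := by
    intro j hj ω
    rw [hNns]
    exact TT_up hS hs0 hc0 hP hI (rr_le hr0 E j) (hρr j) (hρ1 _ hj) hrℓ
      hw ω fun i hi => hN1 i j (hP hi) hj ω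
  have hlow : ∀ j < J, Ex Q D η (fun ω => TT w D I P (rr r E (j + 1)) ω *
      Real.exp (-(s / 4 * Nn (j + 1) ω))) ≤ C1 * Ex Q D η (TT w D I P (rr r E j)) := by
    intro j hj
    simp only [hNns]
    exact TT_low hS hc0 hc1 hs1 hP hQ0 hI (rr_le hr0 E j) (hρr j) (hρ1 _ hj) (hρK _ hj)
      (rr_up hE1 (hρ1 _ hj)) hrℓ hfI hw fun i hi => hN1 i j (hP hi) hj
  have e1 : rr r E 1 = r / E := by rw [show (1 : ℕ) = 0 + 1 by rfl, rr_succ, rr_zero]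
  have e0 : rr r E 0 = r := rr_zero r E
  have hmom : ∀ j < J, Ex Q D η (fun ω => TT w D I P (rr r E (j + 1)) ω *
      Real.exp (2 * s * Nn j ω)) ≤
        (M + max 1 C ^ ms) * Ex Q D η (TT w D I P (rr r E (j + 1))) := by
    intro j hj
    have hpos : 0 ≤ Ex Q D η (TT w D I P (rr r E (j + 1))) :=
      Ex_nonneg hQ0 fun _ _ => hT0 _ hj _
    rcases j with _ | j
    · rw [zero_add, e1] at hpos ⊢
      simp only [hNn0]
      refine hM0.trans (mul_le_mul_of_nonneg_right ?_ hpos)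
      have : 0 ≤ max 1 C ^ ms := by positivity
      linarith
    · simp only [hNns]
      refine (mom_mid hQ0 hε hE1 hεE hC hI hfar hfI hPc (hT0 _ hj) hr0 (hρ1 _ hj)
        (Nf := fun i => Nf i (j + 1)) fun i hi => hN2 i j (hP hi) hj).trans ?_
      refine mul_le_mul_of_nonneg_right ?_ hpos
      linarith
  have hbase : Ex Q D η (fun ω => TT w D I P (rr r E J) ω * Real.exp (s * Nn J ω)) ≤
      Y ^ 4 * Ex Q D η (TT w D I P (rr r E J)) := by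
    rw [← Ex_mul_left]
    refine Ex_mono hQ0 fun S _ => ?_
    rw [mul_comm]
    refine mul_le_mul_of_nonneg_right (le_trans (Real.exp_le_exp.2 ?_) hYb) (hT0 _ le_rfl _)
    refine mul_le_mul_of_nonneg_left ?_ hs.le
    obtain ⟨i, rfl⟩ := Nat.exists_eq_succ_of_ne_zero (by omega : J ≠ 0)
    rw [hNns]
    have h3 : ∑ a ∈ P, Nf a (i + 1) (cf D η S) ≤ ms * Z0 := by
      calc ∑ a ∈ P, Nf a (i + 1) (cf D η S) ≤ ∑ _a ∈ P, Z0 :=
            sum_le_sum fun a _ => hN3 a _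
        _ = P.card * Z0 := by rw [sum_const, smul_eq_mul]
        _ ≤ ms * Z0 := Nat.mul_le_mul_right _ hPc
    exact_mod_cast h3
  -- beyond the last scale the factor is replaced by the last one
  obtain ⟨T, hT⟩ : ∃ T : ℕ → Cfg → ℝ, T = fun j ω => if j ≤ J then TT w D I P (rr r E j) ω else 0 :=
    ⟨_, rfl⟩
  have hTj : ∀ j ≤ J, T j = TT w D I P (rr r E j) := fun j hj => by
    rw [hT]
    funext ω
    exact if_pos hj
  have hTn : ∀ j ω, 0 ≤ T j ω := fun j ω => by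
    by_cases hj : j ≤ J
    · rw [hTj j hj]
      exact hT0 j hj ω
    · rw [hT]
      simp only [hj, if_false]
      exact le_rfl
  have hmain := radii (Q := Q) (D := D) (η := η) hQ0 J
    (T := T) (N := Nn) (s := s) (M := M + max 1 C ^ ms)
    (C1 := C1) (Y := Y) hTn hC1 hY1 hM'0 hYM
    (fun j hj => by rw [hTj j hj.le, hTj (j + 1) hj]; exact hup j hj)
    (fun j hj => by rw [hTj j hj.le, hTj (j + 1) hj]; exact hlow j hj)
    (fun j hj => by rw [hTj (j + 1) hj]; exact hmom j hj) (by rw [hTj J le_rfl]; exact hbase)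
  have m0 := hmain 0 (Nat.zero_le _)
  have m1 := hmain 1 hJ1
  rw [zero_add, hTj 0 (Nat.zero_le _), hTj 1 hJ1, e1, e0] at m0
  rw [hTj 1 hJ1] at m1
  simp only [hNn0] at m0
  refine ⟨m0.1, m0.2 (by omega), ?_⟩
  rw [e1] at m1
  have h3 := hup 0 (by omega)
  rw [zero_add, e1, e0] at h3
  refine le_trans (Ex_mono hQ0 fun S _ => (h3 (cf D η S)).trans ?_) m1.1
  rw [mul_comm]
  refine mul_le_mul_of_nonneg_left (Real.exp_le_exp.2 ?_) (by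
    have := hT0 1 hJ1 (cf D η S)
    rwa [e1] at this)
  have h4 : 0 ≤ Nn 1 (cf D η S) := by
    rw [show (1 : ℕ) = 0 + 1 by rfl, hNns]
    positivity
  have h5 := mul_nonneg hs.le h4
  linarith

end Vale.Agent.P167.N.AW
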