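import Vale.Agent.P167.N.AW.Gen

/-!
# P167, `0 < q < 1`: local factors of an abstract weight, the upper bound

`Lc`: every centre has positive weights or is killed. `mom_all`: exponential moments of the number of the
large segments, weighted by the product of the local factors. `fac`: factorisation. `up_gen`: the
expectation of the absolute value of the product of all the weights is at most the product of the
expectations of the local factors.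
-/

set_option autoImplicit false

namespace Vale.Agent.P167.N.AW

open Finset
open Vale.Agent.P167 Vale.Agent.P167.BR
open Vale.Agent.P167.FK (Bq Ex Good RSW cf)
open Vale.Agent.P167.FKA (Loc Ind Ex_mono Ex_congr Ex_const Ex_mul_left Ex_nonneg)
open Vale.Agent.P167.H562.QM (MajA OneC)
open Vale.Agent.P167.H975 (TX TX_loc)
open Vale.Agent.P167.H365.NQ (XW)
open Vale.Agent.P167.H167.Q (MxA)
open Vale.Agent.P167.H945.L (floor_half)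
open Vale.Agent.P167.H601.LG (nm_of_Bq nm_tri' nm_comm)
open Vale.Agent.P167.H601.S2 (Rg Off off_of_loc TX_nonneg Bq_sub)

variable {A0 c0 b B C1 C2 Q s x y : ℝ} {ℓ m₀ r r' R r1 r2 K Λ : ℤ} {D C P Z : Finset (ℤ × ℤ)}
  {w : Finset Ed → ℝ} {η ω : Cfg} {E M ms : ℕ} {I : ℤ × ℤ → ℤ → Cfg → ℝ} {KE : ℕ → ℤ}
  {CE : ℕ → ℝ}

/-- **Local hypotheses at the centres**: positive weights around the points of `P`, killed centres
`Z`. -/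
structure Lc (Q b B c0 : ℝ) (Λ : ℤ) (KE : ℕ → ℤ) (CE : ℕ → ℝ) (D : Finset (ℤ × ℤ)) (η : Cfg)
    (w : Finset Ed → ℝ) (P Z : Finset (ℤ × ℤ)) (I : ℤ × ℤ → ℤ → Cfg → ℝ) (r : ℤ) : Prop where
  /-- the two kinds of centres -/
  dis : Disjoint P Z
  /-- positive weights -/
  wl : Wl w D P c0 r
  /-- killed centres -/
  kil : ∀ z ∈ Z, Kil b B w D z (I z) r
  /-- extension at the killed centres -/
  ext : ∀ z ∈ Z, ∀ E : ℕ, ExtI Q D η (I z) {z} Λ E (KE E) (CE E) r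
  /-- the centres are far from each other -/
  far : ∀ c ∈ P ∪ Z, ∀ c' ∈ P ∪ Z, c ≠ c' → (Λ + 4) * r < nm (c - c')

theorem Lc.nonneg (h : Lc Q b B c0 Λ KE CE D η w P Z I r) (hc0 : 0 ≤ c0) (hb : 0 ≤ b)
    (hr : 1 ≤ r') (hr' : r' ≤ r) {c : ℤ × ℤ} (hc : c ∈ P ∪ Z) (ω : Cfg) : 0 ≤ TX w D c r' ω := by
  rcases mem_union.1 hc with h' | h'
  · exact (h.wl.mono hr').nonneg hc0 h' ω
  · exact (h.kil c h').nonneg hb hr hr' ω

theorem Lc.pnonneg (h : Lc Q b B c0 Λ KE CE D η w P Z I r) (hc0 : 0 ≤ c0) (hb : 0 ≤ b)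
    (hr : 1 ≤ r) (ω : Cfg) : 0 ≤ PT w D (P ∪ Z) r ω :=
  prod_nonneg fun _ hc => h.nonneg hc0 hb hr le_rfl hc ω

/-- The product of the local factors and the one with the indicators. -/
theorem Lc.two (h : Lc Q b B c0 Λ KE CE D η w P Z I r) (hc0 : 0 ≤ c0) (hb : 0 < b)
    (hr : 1 ≤ r) (ω : Cfg) :
    b ^ Z.card * TT w D (fun a ω => ∏ z ∈ Z, I z a ω) P r ω ≤ PT w D (P ∪ Z) r ω ∧
      PT w D (P ∪ Z) r ω ≤ B ^ Z.card * TT w D (fun a ω => ∏ z ∈ Z, I z a ω) P r ω := by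
  have hP : 0 ≤ PT w D P r ω := h.wl.pnonneg hc0 ω
  have e : PT w D (P ∪ Z) r ω = PT w D Z r ω * PT w D P r ω := by
    unfold PT
    rw [prod_union h.dis, mul_comm]
  rw [e]
  unfold TT
  constructor
  · rw [← mul_assoc]
    refine mul_le_mul_of_nonneg_right ?_ hP
    unfold PT
    calc b ^ Z.card * ∏ z ∈ Z, I z r ω = ∏ z ∈ Z, (b * I z r ω) := by
          rw [prod_mul_distrib, prod_const]
      _ ≤ _ := prod_le_prod (fun z hz => mul_nonneg hb.le ((h.kil z hz).nn hr le_rfl ω).1)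
          fun z hz => (h.kil z hz).low r ω hr le_rfl
  · rw [← mul_assoc]
    refine mul_le_mul_of_nonneg_right ?_ hP
    unfold PT
    calc ∏ z ∈ Z, TX w D z r ω ≤ ∏ z ∈ Z, (B * I z r ω) :=
          prod_le_prod (fun z hz => (h.kil z hz).nonneg hb.le hr le_rfl ω)
            fun z hz => (h.kil z hz).up r ω hr le_rfl
      _ = B ^ Z.card * ∏ z ∈ Z, I z r ω := by
          rw [prod_mul_distrib, prod_const]

/-- The extra factor of all the killed centres. -/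
theorem Lc.extI (h : Lc Q b B c0 Λ KE CE D η w P Z I r) (hQ : 0 < Q) (hΛ : 1 ≤ Λ)
    (hCE : ∀ E, 1 ≤ CE E) (hZ : Z.card ≤ ms) (hr : 0 ≤ r) (E : ℕ) :
    ExtI Q D η (fun a ω => ∏ z ∈ Z, I z a ω) Z Λ E (KE E) (CE E ^ ms) r := by
  refine ExtI.le_C hQ (ExtI.prod (by linarith [hCE E]) hΛ Z (fun c hc => h.ext c hc E)
    fun c hc c' hc' hne => ?_) (pow_le_pow_right₀ (hCE E) hZ)
  have h1 := h.far c (mem_union_right _ hc) c' (mem_union_right _ hc') hne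
  have h2 : (Λ + 4) * r = (Λ + 1) * r + 3 * r := by ring
  omega

/-- **Moments of the number of the large segments of the domain**, weighted by the local factors. -/
theorem mom_all (hQ : Kit Q) (hR : RSW Q) (ms : ℕ) (hA0 : 1 ≤ A0)
    (hc0 : 0 < c0) (hc1 : c0 ≤ 1) (hb : 0 < b) (hb1 : b ≤ 1) (hB : 1 ≤ B) {Rd σ : ℝ}
    (hRd : 0 ≤ Rd) (hΛ : 1 ≤ Λ)
    (KE : ℕ → ℤ) (CE : ℕ → ℝ) (hCE : ∀ E, 1 ≤ CE E) {ρ : ℝ} (hρ : 0 < ρ)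
    (hρσ : 16 * ρ < σ) {κ s : ℝ} (hκ : 0 < κ) (hs : 0 ≤ s) :
    ∃ (c C : ℝ) (n₀ : ℕ), 0 < c ∧ 0 < C ∧ ∀ n : ℕ, n₀ ≤ n →
      ∀ {D : Finset (ℤ × ℤ)} {w : Finset Ed → ℝ} (P Z : Finset (ℤ × ℤ)) (x₀ : ℤ × ℤ),
      (P ∪ Z).card ≤ ms → (∀ v ∈ D, (nm (v - x₀) : ℝ) ≤ Rd * n) →
      ∀ z : ℤ × ℤ, ∃ Nf : Cfg → ℕ,
        (∀ ω ω' : Cfg, (∀ v : ℤ × ℤ, c * n < (nm (v - z) : ℝ) → ω v = ω' v) → Nf ω = Nf ω') ∧
        (∀ ω, MajA D (κ * n) ω (Nf ω)) ∧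
        ∀ (η : Cfg) (I : ℤ × ℤ → ℤ → Cfg → ℝ), Sw A0 ⌊ρ * n⌋ ⌊σ * n⌋ D (P ∪ Z) w η →
          Lc Q b B c0 Λ KE CE D η w P Z I ⌊ρ * n⌋ →
          Ex Q D η (fun ω => PT w D (P ∪ Z) ⌊ρ * n⌋ ω * Real.exp (s * (Nf ω : ℝ))) ≤
            C * Ex Q D η (PT w D (P ∪ Z) ⌊ρ * n⌋) := by
  have hQ0 : 0 < Q := hQ.pos
  have hB0 : 0 < B := by linarith
  obtain ⟨E, c, C, n₀, hc, hC, H⟩ := core hQ hR ms hA0 hc0 hc1 (Rd := Rd) (σ := σ) hRd KE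
    (fun E => CE E ^ ms) (fun E => one_le_pow₀ (hCE E)) hρ hρσ hκ hs
  obtain ⟨n₁, hn₁⟩ := exists_nat_ge (1 / ρ)
  refine ⟨c, B ^ ms * C / b ^ ms, max n₀ n₁, hc, by positivity,
    fun n hn D w P Z x₀ hcard hx₀ z => ?_⟩
  have hPc : P.card ≤ ms := (card_le_card subset_union_left).trans hcard
  have hZc : Z.card ≤ ms := (card_le_card subset_union_right).trans hcard
  obtain ⟨Nf, t1, t2, t3⟩ := H n ((le_max_left _ _).trans hn) (CC := P ∪ Z) (w := w) P Z x₀ hPc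
    hZc hx₀ z
  refine ⟨Nf, t1, t2, fun η I hS hL => ?_⟩
  have hr1 : 1 ≤ ⌊ρ * n⌋ := by
    refine Int.le_floor.2 ?_
    have h3 : (n₁ : ℝ) ≤ n := by exact_mod_cast (le_max_right _ _).trans hn
    have h4 := hn₁.trans h3
    rw [div_le_iff₀ hρ] at h4
    push_cast
    linarith
  have key := t3 _ Λ η hS subset_union_left hL.wl (hL.extI hQ0 hΛ hCE hZc (by omega) E)
    fun c hc z hz => by
      refine hL.far c (mem_union_left _ hc) z (mem_union_right _ hz) fun h => ?_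
      exact disjoint_left.1 hL.dis hc (h ▸ hz)
  have hZb : b ^ ms ≤ b ^ Z.card := pow_le_pow_of_le_one hb.le hb1 hZc
  have hZB : B ^ Z.card ≤ B ^ ms := pow_le_pow_right₀ hB hZc
  have hTT : ∀ ω, 0 ≤ TT w D (fun a ω => ∏ z ∈ Z, I z a ω) P ⌊ρ * n⌋ ω := fun ω =>
    mul_nonneg (prod_nonneg fun z hz => ((hL.kil z hz).nn hr1 le_rfl ω).1)
      (hL.wl.pnonneg hc0.le ω)
  have hbp : 0 < b ^ ms := pow_pos hb _
  calc Ex Q D η (fun ω => PT w D (P ∪ Z) ⌊ρ * n⌋ ω * Real.exp (s * (Nf ω : ℝ)))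
      ≤ Ex Q D η (fun ω => B ^ ms * (TT w D (fun a ω => ∏ z ∈ Z, I z a ω) P ⌊ρ * n⌋ ω *
          Real.exp (s * (Nf ω : ℝ)))) := by
        refine Ex_mono hQ0 fun S _ => ?_
        rw [← mul_assoc]
        refine mul_le_mul_of_nonneg_right ?_ (Real.exp_pos _).le
        exact (hL.two hc0.le hb hr1 _).2.trans (mul_le_mul_of_nonneg_right hZB (hTT _))
    _ = B ^ ms * Ex Q D η (fun ω => TT w D (fun a ω => ∏ z ∈ Z, I z a ω) P ⌊ρ * n⌋ ω *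
          Real.exp (s * (Nf ω : ℝ))) := Ex_mul_left _ _
    _ ≤ B ^ ms * (C * Ex Q D η (TT w D (fun a ω => ∏ z ∈ Z, I z a ω) P ⌊ρ * n⌋)) :=
        mul_le_mul_of_nonneg_left key (by positivity)
    _ ≤ B ^ ms * (C * (1 / b ^ ms * Ex Q D η (PT w D (P ∪ Z) ⌊ρ * n⌋))) := by
        refine mul_le_mul_of_nonneg_left (mul_le_mul_of_nonneg_left ?_ hC.le) (by positivity)
        rw [← Ex_mul_left]
        refine Ex_mono hQ0 fun S _ => ?_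
        have h3 := (hL.two hc0.le hb hr1 (cf D η S)).1
        have h4 := mul_le_mul_of_nonneg_right hZb (hTT (cf D η S))
        rw [one_div, inv_mul_eq_div, le_div_iff₀ hbp, mul_comm]
        exact h4.trans h3
    _ = _ := by ring

/-- **Factorisation.** -/
theorem fac (hQ : Kit Q) (hS : Sw A0 ℓ m₀ D C w η) (hr : r ≤ ℓ)
    (hM : ∀ c ∈ C, MxA Q D η c r ℓ (1 / 2)) (hT : ∀ c ∈ C, ∀ ω, 0 ≤ TX w D c r ω) :
    (1 / 2) ^ C.card * ∏ c ∈ C, Ex Q D η (TX w D c r) ≤ Ex Q D η (PT w D C r) ∧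
      Ex Q D η (PT w D C r) ≤ (3 / 2) ^ C.card * ∏ c ∈ C, Ex Q D η (TX w D c r) := by
  have h := N.H975.ex_prod hQ (by norm_num) (by norm_num) hS.good
    (fun j : ℤ × ℤ => j) (fun j => TX w D j r) C hM hT (fun i _ => TX_loc _ _ _ _)
    fun i hi j hj hij => box_disj hS hi hj hij le_rfl hr
  have e1 : (1 - 1 / 2 : ℝ) = 1 / 2 := by norm_num
  have e2 : (1 + 1 / 2 : ℝ) = 3 / 2 := by norm_num
  rw [e1, e2] at h
  exact h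

/-- **The upper bound.** -/
theorem up_gen (hQ : Kit Q) (hR : RSW Q) (ms : ℕ) (hA0 : 1 ≤ A0)
    (hc0 : 0 < c0) (hc1 : c0 ≤ 1) (hb : 0 < b) (hb1 : b ≤ 1) (hB : 1 ≤ B) {Rd σ ρ₀ : ℝ}
    (hRd : 0 ≤ Rd) (hΛ : 1 ≤ Λ) (KE : ℕ → ℤ) (CE : ℕ → ℝ) (hCE : ∀ E, 1 ≤ CE E) {ρ : ℝ}
    (hρ : 0 < ρ) (hρρ : ρ ≤ ρ₀) (hρσ : 16 * ρ < σ) :
    ∃ (C : ℝ) (n₀ : ℕ), 0 < C ∧ ∀ n : ℕ, n₀ ≤ n →
      ∀ {D : Finset (ℤ × ℤ)} {w : Finset Ed → ℝ} {η : Cfg} (P Z : Finset (ℤ × ℤ)) (x₀ : ℤ × ℤ)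
        (I : ℤ × ℤ → ℤ → Cfg → ℝ),
      Sw A0 ⌊ρ₀ * n⌋ ⌊σ * n⌋ D (P ∪ Z) w η → (P ∪ Z).card ≤ ms →
      (∀ v ∈ D, (nm (v - x₀) : ℝ) ≤ Rd * n) → Lc Q b B c0 Λ KE CE D η w P Z I ⌊ρ * n⌋ →
      (∀ c ∈ P ∪ Z, MxA Q D η c ⌊ρ * n⌋ ⌊ρ₀ * n⌋ (1 / 2)) →
      Ex Q D η (fun ω => |XW D w ω|) ≤ C * Ex Q D η (PT w D (P ∪ Z) ⌊ρ * n⌋) ∧
      Ex Q D η (fun ω => |XW D w ω|) ≤ C * ∏ c ∈ P ∪ Z, Ex Q D η (TX w D c ⌊ρ * n⌋) ∧
      Ex Q D η (PT w D (P ∪ Z) ⌊ρ * n⌋) ≤ C * ∏ c ∈ P ∪ Z, Ex Q D η (TX w D c ⌊ρ * n⌋) ∧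
      ∏ c ∈ P ∪ Z, Ex Q D η (TX w D c ⌊ρ * n⌋) ≤ C * Ex Q D η (PT w D (P ∪ Z) ⌊ρ * n⌋) := by
  have hQ0 : 0 < Q := hQ.pos
  obtain ⟨c, C, n₀, hc, hC, H⟩ := mom_all hQ hR ms hA0 hc0 hc1 hb hb1 hB (Rd := Rd) (σ := σ)
    hRd hΛ KE CE hCE hρ hρσ (κ := ρ / 32) (s := Real.log A0) (by positivity)
    (Real.log_nonneg hA0)
  obtain ⟨n₁, hn₁⟩ := exists_nat_ge (1 / ρ)
  have h32 : (1 : ℝ) ≤ (3 / 2) ^ ms := one_le_pow₀ (by norm_num)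
  have h2 : (1 : ℝ) ≤ 2 ^ ms := one_le_pow₀ (by norm_num)
  refine ⟨C * (3 / 2) ^ ms + (3 / 2) ^ ms + 2 ^ ms, max n₀ n₁, by positivity,
    fun n hn D w η P Z x₀ I hS hcard hx₀ hL hM => ?_⟩
  have hr1 : 1 ≤ ⌊ρ * n⌋ := by
    refine Int.le_floor.2 ?_
    have h3 : (n₁ : ℝ) ≤ n := by exact_mod_cast (le_max_right _ _).trans hn
    have h4 := hn₁.trans h3
    rw [div_le_iff₀ hρ] at h4
    push_cast
    linarith
  have hle : ⌊ρ * (n : ℝ)⌋ ≤ ⌊ρ₀ * (n : ℝ)⌋ :=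
    Int.floor_le_floor (mul_le_mul_of_nonneg_right hρρ (Nat.cast_nonneg n))
  have hT : ∀ c ∈ P ∪ Z, ∀ ω, 0 ≤ TX w D c ⌊ρ * n⌋ ω := fun c hc ω =>
    hL.nonneg hc0.le hb.le hr1 le_rfl hc ω
  obtain ⟨f1, f2⟩ := fac hQ hS hle hM hT
  have hE0 : ∀ c ∈ P ∪ Z, 0 ≤ Ex Q D η (TX w D c ⌊ρ * n⌋) := fun c hc =>
    Ex_nonneg hQ0 fun S _ => hT c hc _
  have hp0 : 0 ≤ ∏ c ∈ P ∪ Z, Ex Q D η (TX w D c ⌊ρ * n⌋) := prod_nonneg hE0
  have hPT0 : 0 ≤ Ex Q D η (PT w D (P ∪ Z) ⌊ρ * n⌋) :=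
    Ex_nonneg hQ0 fun S _ => prod_nonneg fun c hc => hT c hc _
  have f2' : Ex Q D η (PT w D (P ∪ Z) ⌊ρ * n⌋) ≤
      (3 / 2) ^ ms * ∏ c ∈ P ∪ Z, Ex Q D η (TX w D c ⌊ρ * n⌋) :=
    f2.trans (mul_le_mul_of_nonneg_right (pow_le_pow_right₀ (by norm_num) hcard) hp0)
  have f1' : ∏ c ∈ P ∪ Z, Ex Q D η (TX w D c ⌊ρ * n⌋) ≤
      2 ^ ms * Ex Q D η (PT w D (P ∪ Z) ⌊ρ * n⌋) := by
    have h3 : (1 / 2 : ℝ) ^ ms ≤ (1 / 2) ^ (P ∪ Z).card :=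
      pow_le_pow_of_le_one (by norm_num) (by norm_num) hcard
    have h4 := (mul_le_mul_of_nonneg_right h3 hp0).trans f1
    have h5 := mul_le_mul_of_nonneg_left h4 (by positivity : (0 : ℝ) ≤ 2 ^ ms)
    rw [← mul_assoc, ← mul_pow] at h5
    norm_num at h5
    exact h5
  obtain ⟨Nf, -, t2, t3⟩ := H n ((le_max_left _ _).trans hn) (w := w) P Z x₀ hcard hx₀ 0
  have key := t3 η I (hS.mono hle) hL
  have hXW : Ex Q D η (fun ω => |XW D w ω|) ≤ C * Ex Q D η (PT w D (P ∪ Z) ⌊ρ * n⌋) := by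
    refine (Ex_mono hQ0 fun S _ => ?_).trans key
    have h3 := XW_le (ω := cf D η S) hS hle (t := ρ / 32 * n) (by
      have h4 := Int.lt_floor_add_one (ρ * (n : ℝ))
      have h5 : (1 : ℝ) ≤ ⌊ρ * (n : ℝ)⌋ := by exact_mod_cast hr1
      linarith) (t2 (cf D η S))
    have h4 : Real.exp (Real.log A0 * (Nf (cf D η S) : ℝ)) = A0 ^ (Nf (cf D η S)) := by
      rw [mul_comm, Real.exp_nat_mul, Real.exp_log (by linarith)]
    rw [h4, mul_comm (PT w D (P ∪ Z) _ _)]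
    refine h3.trans (le_of_eq ?_)
    rw [abs_of_nonneg (prod_nonneg fun c hc => hT c hc _)]
    rfl
  refine ⟨hXW.trans (mul_le_mul_of_nonneg_right ?_ hPT0), ?_,
    f2'.trans (mul_le_mul_of_nonneg_right ?_ hp0),
    f1'.trans (mul_le_mul_of_nonneg_right ?_ hPT0)⟩
  · nlinarith
  · refine hXW.trans ((mul_le_mul_of_nonneg_left f2' hC.le).trans ?_)
    rw [← mul_assoc]
    refine mul_le_mul_of_nonneg_right ?_ hp0
    linarith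
  · have : 0 ≤ C * (3 / 2 : ℝ) ^ ms := by positivity
    linarith
  · have : 0 ≤ C * (3 / 2 : ℝ) ^ ms := by positivity
    linarith

end Vale.Agent.P167.N.AW
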